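import Vale.Agent.P284.H625.NS.Sheet
import Vale.Agent.P284.H501.ExtS

/-!
# P284 (helper625), module NS: the exterior model

`⟨μ κ, O ∧ μ(Θ, …, Θ)⟩ (ξ)` is the determinant of the matrix with the rows `L_j(ξ_c)` and
`⟨κ_a, Θ ξ_c⟩`. Consequence: the data of the forms `O ∧ μ_r(Θ)`, `O ∧ μ_{r-1}(Θ)` in the coordinates
`(t, y_a = ⟨f_a, F⟩)` are adapted.
-/

open scoped Topology
open Filter

noncomputable section

set_option linter.unusedSectionVars false

namespace Vale.Agent.P284.H625

open Vale.Agent.P272.K Vale.Agent.P284.H501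

/-- the matrix of `O ∧ ⟨κ_1, Θ⟩ ∧ … ∧ ⟨κ_k, Θ⟩` on the vectors `ξ` -/
def gfM {n q k : ℕ} {W : Type} [NormedAddCommGroup W] [InnerProductSpace ℂ W]
    (L : Cm n →L[ℂ] Cm q) (Θ : Cm n → W) (κ : Fin k → W) (ξ : Fin (q + k) → Cm n) :
    Matrix (Fin (q + k)) (Fin (q + k)) ℂ :=
  Matrix.of fun i c => Fin.addCases (fun j => L (ξ c) j) (fun a => inner ℂ (κ a) (Θ (ξ c))) i

/-- the permutation `π ⊕ id` -/
def permL {q : ℕ} (k : ℕ) (π : Equiv.Perm (Fin q)) : Equiv.Perm (Fin (q + k)) :=
  finSumFinEquiv.permCongr (Equiv.Perm.sumCongr π 1)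

theorem permL_castAdd {q k : ℕ} (π : Equiv.Perm (Fin q)) (i : Fin q) :
    permL k π (Fin.castAdd k i) = Fin.castAdd k (π i) := by
  simp [permL, Equiv.permCongr_apply]

theorem permL_natAdd {q k : ℕ} (π : Equiv.Perm (Fin q)) (a : Fin k) :
    permL k π (Fin.natAdd q a) = Fin.natAdd q a := by
  simp [permL, Equiv.permCongr_apply]

theorem sign_permL {q k : ℕ} (π : Equiv.Perm (Fin q)) :
    Equiv.Perm.sign (permL k π) = Equiv.Perm.sign π := by
  rw [permL, Equiv.Perm.sign_permCongr, Equiv.Perm.sign_sumCongr]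
  simp

theorem inner_gf {n q k : ℕ} {W T : Type} [NormedAddCommGroup W] [InnerProductSpace ℂ W]
    [NormedAddCommGroup T] [InnerProductSpace ℂ T] (S : TPow W T k)
    (L : Cm n →L[ℂ] Cm q) (Θ : Cm n → W) (κ : Fin k → W) (ξ : Fin (q + k) → Cm n) :
    inner ℂ (S.μ κ) (gf k L Θ S.μ ξ) = (gfM L Θ κ ξ).det := by
  have h1 : ∀ σ : Equiv.Perm (Fin (q + k)),
      inner ℂ (S.μ κ) (((Equiv.Perm.sign σ : ℤ) : ℂ) •
        ((Matrix.of fun i j : Fin q => L (ξ (σ (Fin.castAdd k i))) j).det •
          S.μ fun a => Θ (ξ (σ (Fin.natAdd q a))))) =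
      ∑ π : Equiv.Perm (Fin q), ((Equiv.Perm.sign (σ * permL k π) : ℤ) : ℂ) *
        ∏ i, gfM L Θ κ ξ i ((σ * permL k π) i) := by
    intro σ
    rw [inner_smul_right, inner_smul_right, S.inner_μ, Matrix.det_apply, Finset.sum_mul,
      Finset.mul_sum]
    refine Finset.sum_congr rfl fun π _ => ?_
    rw [Fin.prod_univ_add, map_mul, sign_permL]
    simp only [gfM, Matrix.of_apply, Fin.addCases_left, Fin.addCases_right,
      Equiv.Perm.coe_mul, Function.comp_apply, permL_castAdd, permL_natAdd]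
    rw [Units.smul_def, ← Int.cast_smul_eq_zsmul ℂ, smul_eq_mul]
    push_cast
    ring
  have h2 : ∀ π : Equiv.Perm (Fin q), ∑ σ : Equiv.Perm (Fin (q + k)),
      ((Equiv.Perm.sign (σ * permL k π) : ℤ) : ℂ) * ∏ i, gfM L Θ κ ξ i ((σ * permL k π) i) =
      (gfM L Θ κ ξ).det := by
    intro π
    rw [← Matrix.det_transpose, Matrix.det_apply']
    exact Fintype.sum_equiv (Equiv.mulRight (permL k π)) _ _ fun σ => rfl
  rw [gf, inner_smul_right, inner_sum, Finset.sum_congr rfl fun σ _ => h1 σ, Finset.sum_comm,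
    Finset.sum_congr rfl fun π _ => h2 π]
  rw [Finset.sum_const, Finset.card_univ, Fintype.card_perm, Fintype.card_fin, nsmul_eq_mul,
    ← mul_assoc, inv_mul_cancel₀, one_mul]
  exact_mod_cast (Nat.factorial_pos q).ne'

/-- minors of the identity matrix -/
theorem det_one_minor (n : ℕ) (i j : Fin (n + 1)) :
    ((1 : Matrix (Fin (n + 1)) (Fin (n + 1)) ℂ).submatrix i.succAbove j.succAbove).det =
      if i = j then 1 else 0 := by
  by_cases h : i = j
  · subst h
    rw [if_pos rfl, Matrix.submatrix_one _ Fin.succAbove_right_injective, Matrix.det_one]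
  · rw [if_neg h]
    obtain ⟨k, hk⟩ := Fin.exists_succAbove_eq (Ne.symm h)
    refine Matrix.det_eq_zero_of_row_eq_zero k fun c => ?_
    rw [Matrix.submatrix_apply, hk, Matrix.one_apply_ne]
    exact (Fin.succAbove_ne j c).symm

/-- **The exterior model is adapted.** -/
theorem adC_of {q r : ℕ} {W T T' : Type} [NormedAddCommGroup W] [InnerProductSpace ℂ W]
    [NormedAddCommGroup T] [InnerProductSpace ℂ T] [CompleteSpace T]
    [NormedAddCommGroup T'] [InnerProductSpace ℂ T'] [CompleteSpace T']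
    (S : TPow W T (r + 1)) (S' : TPow W T' r) {D : Dat q (q + (r + 1)) T T'}
    {F : Cm (q + (r + 1)) → W} {x₀ : Cm (q + (r + 1))} (hD : D.An x₀)
    (ht : ∃ c : Cm q, ∀ᶠ x in 𝓝 x₀, D.t x = tq x + c) (hF : AnalyticAt ℂ F x₀)
    (f : Fin (r + 1) → W)
    (hf : ∀ᶠ x in 𝓝 x₀, ∀ (a : Fin (r + 1)) (c : Fin (q + (r + 1))),
      inner ℂ (f a) (fderiv ℂ F x (Pi.single c 1)) = if Fin.natAdd q a = c then 1 else 0)
    (hv : ∀ᶠ x in 𝓝 x₀, D.v x = gf (r + 1) (tqL q (r + 1)) (fun v => fderiv ℂ F x v) S.μ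
      fun c => Pi.single c 1)
    (hw : ∀ᶠ x in 𝓝 x₀, ∀ i : Fin (q + r + 1), D.w x i = ((-1 : ℂ) ^ (i : ℕ)) •
      gf r (tqL q (r + 1)) (fun v => fderiv ℂ F x v) S'.μ
        fun c : Fin (q + r) => (Pi.single (i.succAbove c) 1 : Cm (q + r + 1))) :
    AdC D F x₀ (S.μ f) (fun a => ((-1 : ℂ) ^ (q + (a : ℕ))) • S'.μ (f ∘ a.succAbove))
      (fun a h => S.μ (Function.update f a h)) := by
  refine ⟨hD, ht, hF, ?_, ?_, ?_⟩
  · filter_upwards [hv, hf] with x h1 h2
    rw [h1, inner_gf]
    have : gfM (tqL q (r + 1)) (fun v => fderiv ℂ F x v) f (fun c => Pi.single c 1) = 1 := by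
      ext i c
      simp only [gfM, Matrix.of_apply]
      refine Fin.addCases (fun j => ?_) (fun a => ?_) i
      · simp only [Fin.addCases_left, tqL_apply, tq, Pi.single_apply, Matrix.one_apply]
      · simp only [Fin.addCases_right, h2 a c, Matrix.one_apply]
    rw [this, Matrix.det_one]
  · filter_upwards [hw, hf] with x h1 h2 a i
    have h3 := h1 i
    rw [h3, inner_smul_left, inner_smul_right, inner_gf]
    have : gfM (tqL q (r + 1)) (fun v => fderiv ℂ F x v) (f ∘ a.succAbove)
        (fun c : Fin (q + r) => (Pi.single (i.succAbove c) 1 : Cm (q + r + 1))) =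
        (1 : Matrix (Fin (q + r + 1)) (Fin (q + r + 1)) ℂ).submatrix
          (Fin.succAbove (Fin.natAdd q a)) (Fin.succAbove i) := by
      ext l c
      simp only [gfM, Matrix.of_apply, Matrix.submatrix_apply]
      refine Fin.addCases (fun j => ?_) (fun b => ?_) l
      · have e1 : (Fin.natAdd q a).succAbove (Fin.castAdd r j) =
            (Fin.castAdd (r + 1) j : Fin (q + r + 1)) := by
          rw [Fin.succAbove_of_castSucc_lt]
          · ext; simp
          · rw [Fin.lt_def]; simp; omega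
        rw [e1]
        simp only [Fin.addCases_left, tqL_apply, tq, Pi.single_apply, Matrix.one_apply]
      · have e1 : (Fin.natAdd q a).succAbove (Fin.natAdd q b) =
            (Fin.natAdd q (a.succAbove b) : Fin (q + r + 1)) := by
          ext
          simp only [Fin.succAbove, Fin.lt_def, Fin.val_castSucc, Fin.val_natAdd]
          split_ifs <;> simp <;> omega
        rw [e1]
        simp only [Fin.addCases_right, Function.comp_apply]
        rw [h2 (a.succAbove b) (i.succAbove c), Matrix.one_apply]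
    rw [this, det_one_minor]
    by_cases h : Fin.natAdd q a = i
    · subst h
      rw [if_pos rfl, mul_one]
      simp [ey, ← mul_pow]
    · rw [if_neg h]
      simp [ey, Ne.symm h]
  · filter_upwards [hv, hf] with x h1 h2 a h
    rw [h1, inner_gf]
    have : gfM (tqL q (r + 1)) (fun v => fderiv ℂ F x v) (Function.update f a h)
        (fun c => Pi.single c 1) =
        (1 : Matrix (Fin (q + (r + 1))) (Fin (q + (r + 1))) ℂ).updateRow (Fin.natAdd q a)
          fun c => inner ℂ h (fderiv ℂ F x (Pi.single c 1)) := by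
      ext i c
      simp only [gfM, Matrix.of_apply, Matrix.updateRow_apply]
      refine Fin.addCases (fun j => ?_) (fun b => ?_) i
      · rw [if_neg]
        · simp only [Fin.addCases_left, tqL_apply, tq, Pi.single_apply, Matrix.one_apply]
        · intro h3
          have := congrArg Fin.val h3
          simp at this
          omega
      · simp only [Fin.addCases_right]
        by_cases hb : b = a
        · subst hb
          rw [if_pos rfl, Function.update_self]
        · rw [if_neg fun h3 => hb (Fin.natAdd_injective _ _ h3), Function.update_of_ne hb, h2 b c,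
            Matrix.one_apply]
    rw [this, ← Matrix.cramer_transpose_apply, Matrix.transpose_one, Matrix.cramer_one]
    rfl

end Vale.Agent.P284.H625
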