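import Vale.Agent.P284.H625.NS.Defs

/-!
# P284 (helper625), module NS: statements of the local blocks

`ℂ^(q+r)` has the coordinates `(t, y)`, `t = tq x` the first `q` ones and `y_a = ⟨f_a, F⟩`: in these
coordinates one component of `v` is `1` and the `∂/∂y_a` are natural vector fields, so that the set of
natural functions `⟨δ, Γ(D)⟩` is closed under `∂/∂y_a` and contains all `⟨h, ∂F/∂y_a⟩`.
-/

open scoped Topology
open Filter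

noncomputable section

namespace Vale.Agent.P284.H625

open Vale.Agent.P272.K

/-- The first `q` coordinates. -/
def tq {q r : ℕ} (x : Cm (q + r)) : Cm q := fun j => x (Fin.castAdd r j)

/-- The constant vector field `∂/∂y_a`. -/
def ey {q r : ℕ} (a : Fin r) : Cm (q + r) := Pi.single (Fin.natAdd q a) 1

section
variable {q r : ℕ} {W H₁ H₂ : Type} [NormedAddCommGroup W] [InnerProductSpace ℂ W]
  [NormedAddCommGroup H₁] [InnerProductSpace ℂ H₁] [NormedAddCommGroup H₂]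
  [InnerProductSpace ℂ H₂]

/-- The datum `D` comes from `F` in adapted coordinates near `x₀`. -/
structure Adapted (D : Dat q (q + r) H₁ H₂) (F : Cm (q + r) → W) (x₀ : Cm (q + r)) : Prop where
  an : D.An x₀
  t_eq : ∃ c : Cm q, ∀ᶠ x in 𝓝 x₀, D.t x = tq x + c
  F_an : AnalyticAt ℂ F x₀
  one : ∃ ε : H₁, ∀ᶠ x in 𝓝 x₀, inner ℂ ε (D.v x) = 1
  vec : ∀ a : Fin r, ∃ e : H₂, ∀ᶠ x in 𝓝 x₀, ∀ i,
    inner ℂ e (D.w x i) = (ey a : Cm (q + r)) i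
  comp : ∀ (a : Fin r) (h : W), ∃ δ : H₁, ∀ᶠ x in 𝓝 x₀,
    inner ℂ δ (D.v x) = inner ℂ h (fderiv ℂ F x (ey a))

/-- `Γ` contains the `m`-th powers of all components of `v`. -/
def Nrm {R m : ℕ} {H : Type} [NormedAddCommGroup H] [InnerProductSpace ℂ H]
    (Γ : NatOp q R H₁ H₂ m H) : Prop :=
  ∀ ε : H₁, ∃ δ : H, ∀ (D : Dat q R H₁ H₂) (x : Cm R), D.An x →
    inner ℂ δ (Γ.op D x) = inner ℂ ε (D.v x) ^ m

/-- `g` is, near `x₀`, a component of a normalised natural operator of positive weight. -/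
def NatFun {R : ℕ} (D : Dat q R H₁ H₂) (x₀ : Cm R) (g : Cm R → ℂ) : Prop :=
  ∃ (m : ℕ) (_ : 1 ≤ m) (H : Type) (_ : NormedAddCommGroup H) (_ : InnerProductSpace ℂ H)
    (_ : CompleteSpace H) (Γ : NatOp q R H₁ H₂ m H) (δ : H), Nrm Γ ∧
    ∀ᶠ x in 𝓝 x₀, g x = inner ℂ δ (Γ.op D x)

end

/-- Closure properties of the natural functions. `der`: derivatives `∂/∂y_a`; `pl`: Jacobian
determinants of natural functions and linear functions of `t`; `fam`: finitely many natural functions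
are components of one operator. -/
def CloStmt : Prop :=
  ∀ (q r : ℕ) (W H₁ H₂ : Type) [NormedAddCommGroup W] [InnerProductSpace ℂ W]
    [NormedAddCommGroup H₁] [InnerProductSpace ℂ H₁] [CompleteSpace H₁]
    [NormedAddCommGroup H₂] [InnerProductSpace ℂ H₂] [CompleteSpace H₂]
    (D : Dat q (q + r) H₁ H₂) (F : Cm (q + r) → W) (x₀ : Cm (q + r)), Adapted D F x₀ →
    (∀ g, NatFun D x₀ g → AnalyticAt ℂ g x₀) ∧
    (∀ g, NatFun D x₀ g → ∀ a : Fin r, NatFun D x₀ fun x => fderiv ℂ g x (ey a)) ∧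
    (∀ (a : Fin r) (h : W), NatFun D x₀ fun x => inner ℂ h (fderiv ℂ F x (ey a))) ∧
    (∀ (s k : ℕ) (e : Fin s ⊕ Fin k ≃ Fin (q + r)) (f : Fin s → Cm (q + r) → ℂ)
      (_ : ∀ i, NatFun D x₀ (f i)) (α : Fin k → Cm q →L[ℂ] ℂ),
      NatFun D x₀ fun x => (Matrix.of fun i j : Fin s ⊕ Fin k =>
        Sum.elim (fun a => fderiv ℂ (f a) x (Pi.single (e j) 1))
          (fun b => α b (tq (Pi.single (e j) 1))) i).det) ∧
    (∀ (s : ℕ) (f : Fin s → Cm (q + r) → ℂ) (_ : ∀ i, NatFun D x₀ (f i)),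
      ∃ (m : ℕ) (_ : 1 ≤ m) (H : Type) (_ : NormedAddCommGroup H) (_ : InnerProductSpace ℂ H)
        (_ : CompleteSpace H) (Γ : NatOp q (q + r) H₁ H₂ m H) (δ : Fin s → H), Nrm Γ ∧
        ∀ i, ∀ᶠ x in 𝓝 x₀, f i x = inner ℂ (δ i) (Γ.op D x))

/-- **V** (vertical nullity): a vertical vector `ζ` killed by all natural functions at `x₀`: then
`∂F/∂ζ` is constant on the fibre of `t` through `x₀`, near `x₀`. -/
def VStmt : Prop :=
  ∀ (q r : ℕ) (W : Type) [NormedAddCommGroup W] [InnerProductSpace ℂ W] [CompleteSpace W]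
    (x₀ : Cm (q + r)) (𝓕 : Set (Cm (q + r) → ℂ)) (F : Cm (q + r) → W)
    (_ : ∀ f ∈ 𝓕, AnalyticAt ℂ f x₀)
    (_ : ∀ f ∈ 𝓕, ∀ a : Fin r, (fun x => fderiv ℂ f x (ey a)) ∈ 𝓕)
    (_ : AnalyticAt ℂ F x₀)
    (_ : ∀ (a : Fin r) (h : W), (fun x => inner ℂ h (fderiv ℂ F x (ey a))) ∈ 𝓕)
    (ζ : Cm (q + r)) (_ : tq ζ = 0) (_ : ∀ g ∈ 𝓕, fderiv ℂ g x₀ ζ = 0),
    ∀ᶠ x in 𝓝 x₀, tq x = tq x₀ → fderiv ℂ F x ζ = fderiv ℂ F x₀ ζ

/-- The isotriviality package at `x₀`: `Φ(x, y)` moves `x` in its leaf, `t` moves along the plane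
`t + N(t) ℂ^k`, the map `F` only changes by a translation depending on `t`, the functions of `𝓕` are
constant on the leaves, and the leaves are the fibres of the functions `f i`. -/
def IsoPkg (q r k s : ℕ) (W : Type) [NormedAddCommGroup W] [InnerProductSpace ℂ W]
    (x₀ : Cm (q + r)) (𝓕 : Set (Cm (q + r) → ℂ)) (F : Cm (q + r) → W)
    (f : Fin s → Cm (q + r) → ℂ) : Prop :=
  ∃ (N : Cm q → Cm k →L[ℂ] Cm q) (Φ : Cm (q + r) × Cm k → Cm (q + r)) (C : Cm q × Cm k → W),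
    AnalyticAt ℂ N (tq x₀) ∧ AnalyticAt ℂ Φ (x₀, 0) ∧ AnalyticAt ℂ C (tq x₀, 0) ∧
    Function.Injective (N (tq x₀)) ∧
    (∀ᶠ x in 𝓝 x₀, Φ (x, 0) = x) ∧
    (∀ᶠ p in 𝓝 ((x₀, 0) : Cm (q + r) × Cm k), tq (Φ p) = tq p.1 + N (tq p.1) p.2) ∧
    (∀ᶠ p in 𝓝 ((x₀, 0) : Cm (q + r) × Cm k), N (tq (Φ p)) = N (tq p.1)) ∧
    (∀ᶠ p in 𝓝 ((x₀, 0) : Cm (q + r) × Cm k), F (Φ p) = F p.1 + C (tq p.1, p.2)) ∧
    (∀ g ∈ 𝓕, ∀ᶠ p in 𝓝 ((x₀, 0) : Cm (q + r) × Cm k), g (Φ p) = g p.1) ∧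
    (∀ᶠ p in 𝓝 ((x₀, x₀) : Cm (q + r) × Cm (q + r)), (∀ i, f i p.1 = f i p.2) →
      ∃ y : Cm k, p.2 = Φ (p.1, y) ∧ tq p.2 = tq p.1 + N (tq p.1) y)

/-- **H** (isotriviality): if the leaves `{f = const}` are transversal to the fibres of `t`. -/
def HStmt : Prop :=
  ∀ (q r k s : ℕ) (e : Fin s ⊕ Fin k ≃ Fin (q + r)) (_ : 1 ≤ k) (W : Type)
    [NormedAddCommGroup W] [InnerProductSpace ℂ W] [CompleteSpace W]
    (x₀ : Cm (q + r)) (𝓕 : Set (Cm (q + r) → ℂ)) (F : Cm (q + r) → W)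
    (_ : ∀ f ∈ 𝓕, AnalyticAt ℂ f x₀)
    (_ : ∀ f ∈ 𝓕, ∀ a : Fin r, (fun x => fderiv ℂ f x (ey a)) ∈ 𝓕)
    (_ : AnalyticAt ℂ F x₀)
    (_ : ∀ (a : Fin r) (h : W), (fun x => inner ℂ h (fderiv ℂ F x (ey a))) ∈ 𝓕)
    (f : Fin s → Cm (q + r) → ℂ) (_ : ∀ i, f i ∈ 𝓕)
    (_ : ∀ y : Fin s → ℂ, ∃ ξ : Cm (q + r), ∀ i, fderiv ℂ (f i) x₀ ξ = y i)
    (_ : ∀ g ∈ 𝓕, ∀ᶠ x in 𝓝 x₀, ∀ ξ : Cm (q + r),
      (∀ i, fderiv ℂ (f i) x ξ = 0) → fderiv ℂ g x ξ = 0)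
    (_ : ∀ ξ : Cm (q + r), (∀ i, fderiv ℂ (f i) x₀ ξ = 0) → tq ξ = 0 → ξ = 0)
    (_ : ∀ α : Fin k → Cm q →L[ℂ] ℂ,
      (fun x => (Matrix.of fun i j : Fin s ⊕ Fin k =>
        Sum.elim (fun a => fderiv ℂ (f a) x (Pi.single (e j) 1))
          (fun b => α b (tq (Pi.single (e j) 1))) i).det) ∈ 𝓕),
    IsoPkg q r k s W x₀ 𝓕 F f

/-- Hilbert space tensor powers. -/
def TPowStmt : Prop :=
  ∀ (K : Type) [NormedAddCommGroup K] [InnerProductSpace ℂ K] [CompleteSpace K] (n : ℕ),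
    ∃ (T : Type) (_ : NormedAddCommGroup T) (_ : InnerProductSpace ℂ T) (_ : CompleteSpace T)
      (μ : ContinuousMultilinearMap ℂ (fun _ : Fin n => K) T),
      (∀ a b : Fin n → K, inner ℂ (μ a) (μ b) = ∏ i, inner ℂ (a i) (b i)) ∧
      ∀ U : K →ₗᵢ[ℂ] K, ∃ V : T →ₗᵢ[ℂ] T, ∀ a : Fin n → K, V (μ a) = μ fun i => U (a i)

/-- Hilbert space tensor products. -/
def TensStmt : Prop :=
  ∀ (H K : Type) [NormedAddCommGroup H] [InnerProductSpace ℂ H] [CompleteSpace H]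
    [NormedAddCommGroup K] [InnerProductSpace ℂ K] [CompleteSpace K],
    ∃ (T : Type) (_ : NormedAddCommGroup T) (_ : InnerProductSpace ℂ T) (_ : CompleteSpace T)
      (B : H →L[ℂ] K →L[ℂ] T),
      (∀ a b c d, inner ℂ (B a b) (B c d) = inner ℂ a c * inner ℂ b d) ∧
      ∀ (U : H →ₗᵢ[ℂ] H) (V : K →ₗᵢ[ℂ] K), ∃ L : T →ₗᵢ[ℂ] T, ∀ a b, L (B a b) = B (U a) (V b)

/-- The exterior model: for `u_1..u_r ∈ W` with `⟨f_a, u_b⟩ = δ_ab`, the antisymmetrised tensors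
`v = Alt(u_1..u_r)`, `w_a = ± Alt(u_1..û_a..u_r)` have the components needed in `Adapted`.  `altr`
is `∑ σ, sign σ • μ (u ∘ σ)`. -/
def altr {n : ℕ} {K T : Type} [NormedAddCommGroup K] [InnerProductSpace ℂ K]
    [NormedAddCommGroup T] [InnerProductSpace ℂ T]
    (μ : ContinuousMultilinearMap ℂ (fun _ : Fin n => K) T) (u : Fin n → K) : T :=
  ∑ σ : Equiv.Perm (Fin n), (Equiv.Perm.sign σ : ℤ) • μ (u ∘ σ)

end Vale.Agent.P284.H625
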