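import Vale.Agent.P284.H625.NS.Ops4
import Vale.Agent.P284.H335.Tens

/-!
# P284 (helper625), module NS: closure properties of the natural functions
-/

open scoped Topology
open Filter

noncomputable section

set_option linter.unusedSectionVars false

namespace Vale.Agent.P284.H625

open Vale.Agent.P272.K

theorem exists_tens (H K : Type) [NormedAddCommGroup H] [InnerProductSpace ℂ H] [CompleteSpace H]
    [NormedAddCommGroup K] [InnerProductSpace ℂ K] [CompleteSpace K] :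
    ∃ (T : Type) (_ : NormedAddCommGroup T) (_ : InnerProductSpace ℂ T) (_ : CompleteSpace T),
      Nonempty (Tens H K T) := by
  obtain ⟨T, i1, i2, i3, B, h1, h2⟩ := H335.tensStmt H K
  exact ⟨T, i1, i2, i3, ⟨⟨B, h1, h2⟩⟩⟩

theorem exists_tpow (K : Type) [NormedAddCommGroup K] [InnerProductSpace ℂ K] [CompleteSpace K]
    (n : ℕ) :
    ∃ (T : Type) (_ : NormedAddCommGroup T) (_ : InnerProductSpace ℂ T) (_ : CompleteSpace T),
      Nonempty (TPow K T n) := by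
  obtain ⟨T, i1, i2, i3, μ, h1, h2⟩ := H335.tPowStmt K n
  exact ⟨T, i1, i2, i3, ⟨⟨μ, h1, h2⟩⟩⟩

section
variable {q R : ℕ} {H₁ H₂ : Type} [NormedAddCommGroup H₁] [InnerProductSpace ℂ H₁]
  [CompleteSpace H₁] [NormedAddCommGroup H₂] [InnerProductSpace ℂ H₂] [CompleteSpace H₂]

variable (q R H₁ H₂) in
/-- normalised operators exist in every positive weight -/
theorem exists_vpow (M : ℕ) : ∃ (H : Type) (_ : NormedAddCommGroup H) (_ : InnerProductSpace ℂ H)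
    (_ : CompleteSpace H) (Γ : NatOp q R H₁ H₂ (M + 1) H), Nrm Γ := by
  induction M with
  | zero => exact ⟨H₁, inferInstance, inferInstance, inferInstance, opV, nrm_opV⟩
  | succ M ih =>
    obtain ⟨H, i1, i2, i3, Γ, hΓ⟩ := ih
    obtain ⟨T, j1, j2, j3, ⟨S⟩⟩ := exists_tens H H₁
    exact ⟨T, j1, j2, j3, opTens S Γ opV, nrm_opTens S hΓ nrm_opV⟩

/-- a component of any operator of positive weight is a natural function -/
theorem natFun_of {m : ℕ} {H : Type} [NormedAddCommGroup H] [InnerProductSpace ℂ H]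
    [CompleteSpace H] (Γ : NatOp q R H₁ H₂ (m + 1) H) (δ : H) {D : Dat q R H₁ H₂} {x₀ : Cm R}
    {g : Cm R → ℂ} (h : ∀ᶠ x in 𝓝 x₀, g x = inner ℂ δ (Γ.op D x)) : NatFun D x₀ g := by
  obtain ⟨K, i1, i2, i3, Γ', hΓ'⟩ := exists_vpow q R H₁ H₂ m
  refine ⟨m + 1, Nat.le_add_left 1 m, WithLp 2 (K × H), inferInstance, inferInstance,
    inferInstance, opSum Γ' Γ, WithLp.toLp 2 (0, δ), nrm_opSum_left Γ hΓ', ?_⟩
  filter_upwards [h] with x hx
  rw [hx]
  simp [opSum]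

theorem NatFun.an {D : Dat q R H₁ H₂} {x₀ : Cm R} {g : Cm R → ℂ} (hD : D.An x₀)
    (h : NatFun D x₀ g) : AnalyticAt ℂ g x₀ := by
  obtain ⟨m, _, H, _, _, _, Γ, δ, _, hg⟩ := h
  have h1 : AnalyticAt ℂ (fun x => inner ℂ δ (Γ.op D x)) x₀ :=
    ((innerSL ℂ δ).analyticAt _).comp_of_eq (Γ.anAt hD) rfl
  exact h1.congr (hg.mono fun x hx => hx.symm)

/-- the component `1` of a normalised operator -/
theorem Nrm.one {m : ℕ} {H : Type} [NormedAddCommGroup H] [InnerProductSpace ℂ H]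
    {Γ : NatOp q R H₁ H₂ m H} (hΓ : Nrm Γ) {D : Dat q R H₁ H₂} {x₀ : Cm R} (hD : D.An x₀)
    (h1 : ∃ ε : H₁, ∀ᶠ x in 𝓝 x₀, inner ℂ ε (D.v x) = 1) :
    ∃ δ : H, ∀ᶠ x in 𝓝 x₀, inner ℂ δ (Γ.op D x) = 1 := by
  obtain ⟨ε, hε⟩ := h1
  obtain ⟨δ, hδ⟩ := hΓ ε
  refine ⟨δ, ?_⟩
  filter_upwards [hε, hD.eventually] with x h1 h2
  rw [hδ D x h2, h1, one_pow]

/-- finitely many natural functions are components of one operator -/
theorem natFam {D : Dat q R H₁ H₂} {x₀ : Cm R} (hD : D.An x₀)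
    (h1 : ∃ ε : H₁, ∀ᶠ x in 𝓝 x₀, inner ℂ ε (D.v x) = 1) (s : ℕ) (f : Fin s → Cm R → ℂ)
    (hf : ∀ i, NatFun D x₀ (f i)) :
    ∃ (m : ℕ) (_ : 1 ≤ m) (H : Type) (_ : NormedAddCommGroup H) (_ : InnerProductSpace ℂ H)
      (_ : CompleteSpace H) (Γ : NatOp q R H₁ H₂ m H) (δ : Fin s → H), Nrm Γ ∧
      ∀ i, ∀ᶠ x in 𝓝 x₀, f i x = inner ℂ (δ i) (Γ.op D x) := by
  induction s with
  | zero =>
    exact ⟨1, le_refl 1, H₁, inferInstance, inferInstance, inferInstance, opV, fun i => i.elim0,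
      nrm_opV, fun i => i.elim0⟩
  | succ s ih =>
    obtain ⟨m, hm, H, i1, i2, i3, Γ, δ, hΓ, hδ⟩ := ih (fun i => f i.succ) fun i => hf i.succ
    obtain ⟨m', hm', H', j1, j2, j3, Γ', δ', hΓ', hδ'⟩ := hf 0
    obtain ⟨T, k1, k2, k3, ⟨S⟩⟩ := exists_tens H' H
    obtain ⟨δ₀, hδ₀⟩ := hΓ.one hD h1
    obtain ⟨δ₀', hδ₀'⟩ := hΓ'.one hD h1
    refine ⟨m' + m, by omega, T, k1, k2, k3, opTens S Γ' Γ,
      Fin.cons (S.B δ' δ₀) (fun i => S.B δ₀' (δ i)), nrm_opTens S hΓ' hΓ, fun i => ?_⟩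
    refine Fin.cases ?_ (fun i => ?_) i
    · filter_upwards [hδ', hδ₀] with x h2 h3
      simp only [Fin.cons_zero, opTens, S.inner_B, h3, h2, mul_one]
    · filter_upwards [hδ i, hδ₀'] with x h2 h3
      simp only [Fin.cons_succ, opTens, S.inner_B, h3, h2, one_mul]

/-- derivative of a component -/
theorem fderiv_inner_const {H : Type} [NormedAddCommGroup H] [InnerProductSpace ℂ H] (δ : H)
    {f : Cm R → H} {x : Cm R} (hf : DifferentiableAt ℂ f x) (ξ : Cm R) :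
    fderiv ℂ (fun y => inner ℂ δ (f y)) x ξ = inner ℂ δ (fderiv ℂ f x ξ) := by
  have : HasFDerivAt (fun y => inner ℂ δ (f y)) ((innerSL ℂ δ).comp (fderiv ℂ f x)) x :=
    (innerSL ℂ δ).hasFDerivAt.comp x hf.hasFDerivAt
  rw [this.fderiv]
  simp

/-- the component `d f` of `Γ ∧ dΓ` -/
theorem inner_formD {m : ℕ} {H T : Type} [NormedAddCommGroup H] [InnerProductSpace ℂ H]
    [CompleteSpace H] [NormedAddCommGroup T] [InnerProductSpace ℂ T] (S : Tens H H T)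
    (Γ : NatOp q R H₁ H₂ m H) {D : Dat q R H₁ H₂} {x₀ : Cm R} (hD : D.An x₀) {δ₀ δ : H}
    (h₀ : ∀ᶠ x in 𝓝 x₀, inner ℂ δ₀ (Γ.op D x) = 1) {f : Cm R → ℂ}
    (h : ∀ᶠ x in 𝓝 x₀, f x = inner ℂ δ (Γ.op D x)) :
    ∀ᶠ x in 𝓝 x₀, ∀ j, inner ℂ (S.B δ₀ δ) ((formD S Γ).op D x j) =
      fderiv ℂ f x (Pi.single j 1) := by
  filter_upwards [h₀.eventually_nhds, h.eventually_nhds, hD.eventually] with x h1 h2 h3 j
  have hd := (Γ.anAt h3).differentiableAt
  have e1 : inner ℂ δ₀ (fderiv ℂ (Γ.op D) x (Pi.single j 1)) = 0 := by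
    rw [← fderiv_inner_const δ₀ hd]
    have : (fun y => inner ℂ δ₀ (Γ.op D y)) =ᶠ[𝓝 x] fun _ => (1 : ℂ) := h1
    rw [this.fderiv_eq]
    simp
  have e2 : inner ℂ δ (fderiv ℂ (Γ.op D) x (Pi.single j 1)) = fderiv ℂ f x (Pi.single j 1) := by
    rw [← fderiv_inner_const δ hd]
    have : f =ᶠ[𝓝 x] fun y => inner ℂ δ (Γ.op D y) := h2
    rw [this.fderiv_eq]
  simp only [formD, inner_sub_right, S.inner_B, e1, e2, h1.self_of_nhds, one_mul, zero_mul,
    sub_zero]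

end

/-- the vector of `ℂ^q` representing a functional -/
def rep {q : ℕ} (α : Cm q →L[ℂ] ℂ) : Eq' q :=
  WithLp.toLp 2 fun j => (starRingEnd ℂ) (α (Pi.single j 1))

theorem inner_rep {q : ℕ} (α : Cm q →L[ℂ] ℂ) (u : Cm q) :
    inner ℂ (rep α) (WithLp.toLp 2 u : Eq' q) = α u := by
  rw [clm_apply_sum α u, PiLp.inner_apply]
  refine Finset.sum_congr rfl fun j _ => ?_
  simp [rep]

theorem cloStmt : CloStmt := by
  intro q r W H₁ H₂ _ _ _ _ _ _ _ _ D F x₀ hA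
  refine ⟨fun g hg => hg.an hA.an, fun g hg a => ?_, fun a h => ?_, fun s k e f hf α => ?_,
    fun s f hf => natFam hA.an hA.one s f hf⟩
  · obtain ⟨m, hm, H, i1, i2, i3, Γ, δ, hΓ, hδ⟩ := hg
    obtain ⟨δ₀, hδ₀⟩ := hΓ.one hA.an hA.one
    obtain ⟨T, j1, j2, j3, ⟨S⟩⟩ := exists_tens H H
    obtain ⟨T', k1, k2, k3, ⟨S'⟩⟩ := exists_tens T H₂
    obtain ⟨e, he⟩ := hA.vec a
    refine natFun_of (opC S' (formD S Γ)) (S'.B (S.B δ₀ δ) e) ?_
    filter_upwards [inner_formD S Γ hA.an hδ₀ hδ, he] with x h1 h2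
    simp only [opC, inner_sum, S'.inner_B, h1, h2]
    rw [clm_apply_sum (fderiv ℂ g x) (ey a)]
    exact Finset.sum_congr rfl fun j _ => by rw [smul_eq_mul, mul_comm]
  · obtain ⟨δ, hδ⟩ := hA.comp a h
    exact ⟨1, le_refl 1, H₁, inferInstance, inferInstance, inferInstance, opV, δ, nrm_opV,
      hδ.mono fun x hx => hx.symm⟩
  · obtain ⟨m, hm, H, i1, i2, i3, Γ, δ, hΓ, hδ⟩ := natFam hA.an hA.one s f hf
    obtain ⟨δ₀, hδ₀⟩ := hΓ.one hA.an hA.one
    obtain ⟨T, j1, j2, j3, ⟨S⟩⟩ := exists_tens H H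
    obtain ⟨T', k1, k2, k3, ⟨S'⟩⟩ := exists_tens T (Eq' q)
    obtain ⟨T'', l1, l2, l3, ⟨S''⟩⟩ := exists_tpow (WithLp 2 (T × T')) (q + r)
    obtain ⟨c, hc⟩ := hA.t_eq
    set β := formSum (formD S Γ) (formT S' (opTens S Γ Γ)) with hβ
    set κ : Fin s ⊕ Fin k → WithLp 2 (T × T') := Sum.elim
      (fun a => WithLp.toLp 2 (S.B δ₀ (δ a), 0))
      (fun b => WithLp.toLp 2 (0, S'.B (S.B δ₀ δ₀) (rep (α b)))) with hκ
    refine natFun_of (opAlt S'' β) (S''.μ fun i => κ (e.symm i)) ?_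
    have hall : ∀ᶠ x in 𝓝 x₀, ∀ i, ∀ j, inner ℂ (S.B δ₀ (δ i)) ((formD S Γ).op D x j) =
        fderiv ℂ (f i) x (Pi.single j 1) := by
      rw [eventually_all]
      exact fun i => inner_formD S Γ hA.an hδ₀ (hδ i)
    filter_upwards [hall, hδ₀, hc.eventually_nhds] with x h1 h2 h3
    have ht : ∀ j, fderiv ℂ D.t x (Pi.single j 1) = tq (Pi.single j (1 : ℂ) : Cm (q + r)) := by
      intro j
      have e1 : D.t =ᶠ[𝓝 x] fun y => tq y + c := h3
      rw [e1.fderiv_eq, fderiv_add_const]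
      have e2 : (tq : Cm (q + r) → Cm q) =
          (LinearMap.funLeft ℂ ℂ (Fin.castAdd r : Fin q → Fin (q + r))).toContinuousLinearMap := by
        funext y
        rfl
      rw [e2, ContinuousLinearMap.fderiv]
    have hrow : ∀ (i : Fin s ⊕ Fin k) (j : Fin (q + r)), inner ℂ (κ i) (β.op D x j) =
        Sum.elim (fun a => fderiv ℂ (f a) x (Pi.single j 1))
          (fun b => α b (tq (Pi.single j (1 : ℂ) : Cm (q + r)))) i := by
      intro i j
      rcases i with a | b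
      · simp only [hκ, hβ, formSum, Sum.elim_inl, WithLp.prod_inner_apply, inner_zero_left,
          add_zero]
        exact h1 a j
      · simp only [hκ, hβ, formSum, Sum.elim_inr, WithLp.prod_inner_apply, inner_zero_left,
          zero_add, formT, S'.inner_B, opTens, S.inner_B, h2, one_mul, inner_rep, ht]
    simp only [opAlt]
    rw [inner_altr, ← Matrix.det_submatrix_equiv_self e]
    congr 1
    ext i j
    simp only [Matrix.submatrix_apply, Matrix.of_apply, e.symm_apply_apply, hrow]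

end Vale.Agent.P284.H625
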