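import Vale.Agent.P284.H619.NF

/-!
# P284 (helper625), module NS: straightening of a submersion, descent of a map
-/

open scoped Topology
open Filter Set Metric

noncomputable section

namespace Vale.Agent.P284.H625


variable {V : Type*} [NormedAddCommGroup V] [NormedSpace ℂ V] [FiniteDimensional ℂ V]

/-- straightening of a submersion -/
theorem exists_straight {R : ℕ} {b : V → Fin R → ℂ} {z₀ : V} (hb : AnalyticAt ℂ b z₀)
    (hs : Function.Surjective (fderiv ℂ b z₀)) :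
    ∃ (s : (Fin R → ℂ) →L[ℂ] V) (φ χ : V → V), (∀ w, fderiv ℂ b z₀ (s w) = w) ∧
      AnalyticAt ℂ φ z₀ ∧ φ z₀ = 0 ∧ AnalyticAt ℂ χ 0 ∧ χ 0 = z₀ ∧ (∀ᶠ z in 𝓝 z₀, χ (φ z) = z) ∧
      (∀ᶠ u in 𝓝 0, φ (χ u) = u) ∧ ∀ᶠ u in 𝓝 0, b (χ u) = b z₀ + fderiv ℂ b z₀ u := by
  have : CompleteSpace V := FiniteDimensional.complete ℂ V
  set L : V →L[ℂ] (Fin R → ℂ) := fderiv ℂ b z₀ with hL
  obtain ⟨s', hs'⟩ := (L : V →ₗ[ℂ] (Fin R → ℂ)).exists_rightInverse_of_surjective
    (LinearMap.range_eq_top.2 hs)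
  set s : (Fin R → ℂ) →L[ℂ] V := LinearMap.toContinuousLinearMap s' with hsdef
  have hLs' : ∀ w, L (s w) = w := fun w => LinearMap.congr_fun hs' w
  set φ : V → V := fun z => (z - z₀) - s (L (z - z₀)) + s (b z - b z₀) with hφ
  have hφan : AnalyticAt ℂ φ z₀ := by
    have e1 : AnalyticAt ℂ (fun z : V => z - z₀) z₀ := analyticAt_id.sub analyticAt_const
    exact (e1.sub (((s.comp L).analyticAt _).comp e1)).add
      ((s.analyticAt _).comp (hb.sub analyticAt_const))
  have hφd : HasFDerivAt φ (ContinuousLinearMap.id ℂ V) z₀ := by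
    have e1 : HasFDerivAt (fun z : V => z - z₀) (ContinuousLinearMap.id ℂ V) z₀ :=
      (hasFDerivAt_id z₀).sub_const z₀
    have e2 : HasFDerivAt b L z₀ := hb.differentiableAt.hasFDerivAt
    have e3 := (e1.sub ((s.comp L).hasFDerivAt.comp z₀ e1)).add
      (s.hasFDerivAt.comp z₀ (e2.sub_const (b z₀)))
    refine e3.congr_fderiv ?_
    ext v
    simp
  have hφs : HasStrictFDerivAt φ ((ContinuousLinearEquiv.refl ℂ V : V ≃L[ℂ] V) : V →L[ℂ] V) z₀ := by
    have := hφan.hasStrictFDerivAt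
    rw [hφd.fderiv] at this
    exact this
  have hφ0 : φ z₀ = 0 := by simp [hφ]
  have hLφ : ∀ z, L (φ z) = b z - b z₀ := by
    intro z
    simp only [hφ, map_add, map_sub, hLs']
    abel
  set Φ := hφs.toOpenPartialHomeomorph φ with hΦ
  have hΦc : ∀ z, Φ z = φ z := fun z => rfl
  have hzs : z₀ ∈ Φ.source := hφs.mem_toOpenPartialHomeomorph_source
  have h0t : (0 : V) ∈ Φ.target := by
    have := Φ.map_source hzs
    rwa [hΦc, hφ0] at this
  set χ := Φ.symm with hχ
  have hχan : AnalyticAt ℂ χ 0 := by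
    have := Φ.analyticAt_symm' (i := ContinuousLinearEquiv.refl ℂ V) hzs hφan hφd.fderiv
    rwa [hΦc, hφ0] at this
  have hχ0 : χ 0 = z₀ := by
    have := Φ.left_inv hzs
    rwa [hΦc, hφ0] at this
  have hbχ : ∀ u ∈ Φ.target, b (χ u) = b z₀ + L u := by
    intro u hu
    have e1 := hLφ (χ u)
    have e2 : φ (χ u) = u := Φ.right_inv hu
    rw [e2] at e1
    rw [e1]; abel
  refine ⟨s, φ, χ, hLs', hφan, hφ0, hχan, hχ0, ?_, ?_, ?_⟩
  · filter_upwards [Φ.open_source.mem_nhds hzs] with z hz using Φ.left_inv hz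
  · filter_upwards [Φ.open_target.mem_nhds h0t] with z hz using Φ.right_inv hz
  · filter_upwards [Φ.open_target.mem_nhds h0t] with z hz using hbχ z hz

/-- **Descent**: a map whose differential vanishes on the kernels of the submersion `b` is locally a
function of `b`. -/
theorem exists_desc {H : Type*} [NormedAddCommGroup H] [InnerProductSpace ℂ H] [CompleteSpace H]
    {R : ℕ} {b : V → Fin R → ℂ} {z₀ : V} (hb : AnalyticAt ℂ b z₀)
    (hs : Function.Surjective (fderiv ℂ b z₀)) {F : V → H} (hF : AnalyticAt ℂ F z₀)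
    (hker : ∀ᶠ z in 𝓝 z₀, ∀ v, fderiv ℂ b z v = 0 → fderiv ℂ F z v = 0) :
    ∃ F' : (Fin R → ℂ) → H, AnalyticAt ℂ F' (b z₀) ∧ ∀ᶠ z in 𝓝 z₀, F z = F' (b z) := by
  have : CompleteSpace V := FiniteDimensional.complete ℂ V
  obtain ⟨s, φ, χ, hLs', hφan, hφ0, hχan, hχ0, hχφ, hφχ, hbχ⟩ := exists_straight hb hs
  set L : V →L[ℂ] (Fin R → ℂ) := fderiv ℂ b z₀ with hL
  have hgood : ∀ᶠ u in 𝓝 (0 : V), (∀ᶠ u' in 𝓝 u, b (χ u') = b z₀ + L u') ∧ AnalyticAt ℂ χ u ∧
      AnalyticAt ℂ F (χ u) ∧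
      AnalyticAt ℂ b (χ u) ∧ ∀ v, fderiv ℂ b (χ u) v = 0 → fderiv ℂ F (χ u) v = 0 := by
    have hc : Tendsto χ (𝓝 0) (𝓝 z₀) := by
      have := hχan.continuousAt.tendsto
      rwa [hχ0] at this
    filter_upwards [hbχ.eventually_nhds, hχan.eventually_analyticAt,
      hc.eventually hF.eventually_analyticAt, hc.eventually hb.eventually_analyticAt,
      hc.eventually hker] with u h1 h2 h3 h4 h5
    exact ⟨h1, h2, h3, h4, h5⟩
  obtain ⟨δ, hδ, hball⟩ := Metric.eventually_nhds_iff_ball.1 hgood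
  have hconst : ∀ u, u ∈ ball (0 : V) δ → s (L u) ∈ ball (0 : V) δ → F (χ u) = F (χ (s (L u))) := by
    intro u hu hsu
    refine H619.const_seg (G := fun u => F (χ u)) (a := s (L u)) (b := u) fun t ht => ?_
    set u' := s (L u) + (t : ℂ) • (u - s (L u)) with hu'
    have hu'b : u' ∈ ball (0 : V) δ := by
      have e1 : u' = (1 - t) • s (L u) + t • u := by
        rw [hu', smul_sub, sub_smul, one_smul]
        simp only [Complex.coe_smul]
        abel
      rw [e1]
      exact (convex_ball (0 : V) δ) hsu hu (sub_nonneg.2 ht.2) ht.1 (by ring)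
    obtain ⟨g1, g2, g3, g4, g5⟩ := hball u' hu'b
    have e1 : HasFDerivAt (fun u => F (χ u)) ((fderiv ℂ F (χ u')).comp (fderiv ℂ χ u')) u' :=
      g3.differentiableAt.hasFDerivAt.comp u' g2.differentiableAt.hasFDerivAt
    refine ⟨_, e1, ?_⟩
    rw [ContinuousLinearMap.comp_apply]
    apply g5
    have e2 : HasFDerivAt (fun u => b (χ u)) ((fderiv ℂ b (χ u')).comp (fderiv ℂ χ u')) u' :=
      g4.differentiableAt.hasFDerivAt.comp u' g2.differentiableAt.hasFDerivAt
    have e3 : HasFDerivAt (fun u => b (χ u)) L u' := by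
      have e4 : HasFDerivAt (fun u => b z₀ + L u) L u' := L.hasFDerivAt.const_add _
      exact e4.congr_of_eventuallyEq g1
    have e5 := DFunLike.congr_fun (e2.unique e3) (u - s (L u))
    rw [ContinuousLinearMap.comp_apply] at e5
    rw [e5, map_sub, hLs', sub_self]
  have hF'an : AnalyticAt ℂ (fun β => F (χ (s (β - b z₀)))) (b z₀) := by
    have e0 : s (b z₀ - b z₀) = 0 := by rw [sub_self, map_zero]
    have e1 : AnalyticAt ℂ (fun β => s (β - b z₀)) (b z₀) :=
      (s.analyticAt _).comp (analyticAt_id.sub analyticAt_const)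
    have e2 : AnalyticAt ℂ (fun β => χ (s (β - b z₀))) (b z₀) :=
      AnalyticAt.fun_comp (by rw [e0]; exact hχan) e1
    exact AnalyticAt.fun_comp (by rw [e0, hχ0]; exact hF) e2
  refine ⟨fun β => F (χ (s (β - b z₀))), hF'an, ?_⟩
  have hc1 : Tendsto φ (𝓝 z₀) (𝓝 0) := by
    have := hφan.continuousAt.tendsto
    rwa [hφ0] at this
  have hc2 : Tendsto (fun z => s (L (φ z))) (𝓝 z₀) (𝓝 0) := by
    have h := ((s.comp L).continuous.tendsto 0).comp hc1
    rw [map_zero] at h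
    exact h
  filter_upwards [hc1.eventually (ball_mem_nhds 0 hδ), hc2.eventually (ball_mem_nhds 0 hδ),
    hχφ, hc1.eventually hbχ] with z h1 h2 e1 h4
  have e2 : L (φ z) = b z - b z₀ := by
    rw [e1] at h4
    rw [h4]; abel
  calc F z = F (χ (φ z)) := by rw [e1]
    _ = F (χ (s (L (φ z)))) := hconst _ h1 h2
    _ = F (χ (s (b z - b z₀))) := by rw [e2]

end Vale.Agent.P284.H625
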