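import Vale.Agent.P284.H625.NS.GfA
import Vale.Agent.P284.H625.NS.Strt

/-!
# P284 (helper625), module NS: the local form
-/

open scoped Topology
open Filter

noncomputable section

set_option linter.unusedSectionVars false

namespace Vale.Agent.P284.H625

open Vale.Agent.P272.K Vale.Agent.P284.H501 Vale.Agent.P284.H338

section
variable {n q : ℕ} {W : Type} [NormedAddCommGroup W] [NormedSpace ℂ W] [CompleteSpace W]

/-- the pull-back of an analytic form is analytic -/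
theorem pull_an {l : ℕ} {s : Cm n → Cm n [⋀^Fin l]→L[ℂ] W} {χ : Cm n → Cm n} {u₀ : Cm n}
    (hχ : AnalyticAt ℂ χ u₀) (hs : AnalyticAt ℂ s (χ u₀)) :
    AnalyticAt ℂ (fun u => (s (χ u)).compContinuousLinearMap (fderiv ℂ χ u)) u₀ := by
  have h1 : ∀ᶠ u in 𝓝 u₀, DifferentiableAt ℂ
      (fun u => (s (χ u)).compContinuousLinearMap (fderiv ℂ χ u)) u := by
    filter_upwards [hχ.eventually_analyticAt, hχ.continuousAt.eventually hs.eventually_analyticAt]
      with u h1 h2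
    have h3 : DifferentiableAt ℂ (fun u => s (χ u)) u := (h2.fun_comp h1).differentiableAt
    have h4 : DifferentiableAt ℂ (fun u => fderiv ℂ χ u) u := h1.fderiv.differentiableAt
    exact (h3.hasFDerivAt.continuousAlternatingMapCompContinuousLinearMap
      h4.hasFDerivAt).differentiableAt
  obtain ⟨δ, hδ, hb⟩ := Metric.eventually_nhds_iff_ball.1 h1
  exact Vale.Agent.P268.analyticAt_of_differentiableOn Metric.isOpen_ball
    (fun u hu => (hb u hu).differentiableWithinAt) (Metric.mem_ball_self hδ)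

/-- **Relative Poincaré lemma.** -/
theorem rel_poincare {t : Cm n → Cm q} {s : Cm n → Cm n [⋀^Fin (q + 1)]→L[ℂ] W} {z₀ : Cm n}
    (ht : AnalyticAt ℂ t z₀) (hs : AnalyticAt ℂ s z₀) (hc : ∀ᶠ z in 𝓝 z₀, extDeriv s z = 0)
    (hrel : ∀ᶠ z in 𝓝 z₀, ∀ (ξ : Fin (q + 1) → Cm n) (i j : Fin (q + 1)), i ≠ j →
      fderiv ℂ t z (ξ i) = 0 → fderiv ℂ t z (ξ j) = 0 → s z ξ = 0)
    (hsu : Function.Surjective (fderiv ℂ t z₀)) :
    ∃ F : Cm n → W, AnalyticAt ℂ F z₀ ∧ ∀ᶠ z in 𝓝 z₀, IsW (fderiv ℂ t z) (s z) (fderiv ℂ F z) := by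
  obtain ⟨s₀, φ, χ, hLs, hφan, hφ0, hχan, hχ0, hχφ, hφχ, htχ⟩ := exists_straight ht hsu
  set L : Cm n →L[ℂ] Cm q := fderiv ℂ t z₀ with hL
  set ε : Fin q → Cm n := fun i => s₀ (Pi.single i 1) with hε
  have hcχ : Tendsto χ (𝓝 0) (𝓝 z₀) := by
    have := hχan.continuousAt.tendsto
    rwa [hχ0] at this
  have hcφ : Tendsto φ (𝓝 z₀) (𝓝 0) := by
    have := hφan.continuousAt.tendsto
    rwa [hφ0] at this
  -- derivative of `t ∘ χ`
  have hd : ∀ᶠ u in 𝓝 (0 : Cm n), ∀ v, fderiv ℂ t (χ u) (fderiv ℂ χ u v) = L v := by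
    filter_upwards [htχ.eventually_nhds, hχan.eventually_analyticAt,
      hcχ.eventually ht.eventually_analyticAt] with u h1 h2 h3
    intro v
    have e2 : HasFDerivAt (fun u => t (χ u)) ((fderiv ℂ t (χ u)).comp (fderiv ℂ χ u)) u :=
      h3.differentiableAt.hasFDerivAt.comp u h2.differentiableAt.hasFDerivAt
    have e3 : HasFDerivAt (fun u => t (χ u)) L u := by
      have e4 : HasFDerivAt (fun u => t z₀ + L u) L u := L.hasFDerivAt.const_add _
      exact e4.congr_of_eventuallyEq h1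
    exact DFunLike.congr_fun (e2.unique e3) v
  set S' : Cm n → Cm n [⋀^Fin (q + 1)]→L[ℂ] W :=
    fun u => (s (χ u)).compContinuousLinearMap (fderiv ℂ χ u) with hS'
  have hS'an : AnalyticAt ℂ S' 0 := pull_an hχan (by rw [hχ0]; exact hs)
  have hS'c : ∀ᶠ u in 𝓝 (0 : Cm n), extDeriv S' u = 0 := by
    filter_upwards [hχan.eventually_analyticAt, hcχ.eventually hs.eventually_analyticAt,
      hcχ.eventually hc] with u h1 h2 h3
    have h4 := extDeriv_pullback (𝕜 := ℂ) (r := ⊤) (ω := s) (f := χ) (x := u) h2.differentiableAt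
      h1.contDiffAt le_top
    rw [hS', h4, h3]
    ext v
    rfl
  have hS'r : ∀ᶠ u in 𝓝 (0 : Cm n), ∀ (ξ : Fin (q + 1) → Cm n) (i j : Fin (q + 1)), i ≠ j →
      L (ξ i) = 0 → L (ξ j) = 0 → S' u ξ = 0 := by
    filter_upwards [hd, hcχ.eventually hrel] with u h1 h2
    intro ξ i j hij hi hj
    refine h2 (fun i => fderiv ℂ χ u (ξ i)) i j hij ?_ ?_
    · rw [h1]; exact hi
    · rw [h1]; exact hj
  obtain ⟨G, hGan, hG⟩ := straight hLs ε hS'an hS'c hS'r
  refine ⟨fun z => G (φ z), AnalyticAt.fun_comp (by rw [hφ0]; exact hGan) hφan, ?_⟩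
  have hinv : ∀ᶠ z in 𝓝 z₀, ∀ v, fderiv ℂ χ (φ z) (fderiv ℂ φ z v) = v := by
    filter_upwards [hχφ.eventually_nhds, hφan.eventually_analyticAt,
      hcφ.eventually hχan.eventually_analyticAt] with z h1 h2 h3
    intro v
    have e2 : HasFDerivAt (fun z => χ (φ z)) ((fderiv ℂ χ (φ z)).comp (fderiv ℂ φ z)) z :=
      h3.differentiableAt.hasFDerivAt.comp z h2.differentiableAt.hasFDerivAt
    have e3 : HasFDerivAt (fun z => χ (φ z)) (ContinuousLinearMap.id ℂ (Cm n)) z :=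
      (hasFDerivAt_id z).congr_of_eventuallyEq h1
    exact DFunLike.congr_fun (e2.unique e3) v
  filter_upwards [hcφ.eventually hG, hcφ.eventually hd, hχφ, hinv, hrel,
    hφan.eventually_analyticAt, hcφ.eventually hGan.eventually_analyticAt] with z h1 h2 h3 h4 h5 h6 h7
  rw [h3] at h2
  refine isW_of (ε := fun i => fderiv ℂ χ (φ z) (ε i)) (fun i => ?_) h5 fun η hη => ?_
  · rw [h2, hε]
    exact hLs _
  · have e1 : L (fderiv ℂ φ z η) = 0 := by
      rw [← h2, h4]; exact hη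
    have e2 := h1 _ e1
    have e3 : fderiv ℂ (fun z => G (φ z)) z η = fderiv ℂ G (φ z) (fderiv ℂ φ z η) := by
      rw [fderiv_fun_comp z h7.differentiableAt h6.differentiableAt]
      rfl
    rw [e3, e2, hS']
    show s z _ = s (χ (φ z)) fun i => fderiv ℂ χ (φ z) (sn ε (fderiv ℂ φ z η) i)
    rw [h3]
    congr 1
    funext i
    refine Fin.lastCases ?_ (fun i => ?_) i
    · rw [sn_last, sn_last, h4]
    · rw [sn_castSucc, sn_castSucc]

end

section loc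
variable {n q : ℕ} {W : Type} [NormedAddCommGroup W] [InnerProductSpace ℂ W]

/-- the rows `L_j`, `⟨κ_a, ·⟩` -/
def bmap (q : ℕ) {k : ℕ} (κ : Fin k → W) : Cm q × W →L[ℂ] Cm (q + k) :=
  ContinuousLinearMap.pi fun i => Fin.addCases
    (fun j => (ContinuousLinearMap.proj (R := ℂ) (φ := fun _ : Fin q => ℂ) j).comp
      (ContinuousLinearMap.fst ℂ (Cm q) W))
    (fun a => (innerSL ℂ (κ a)).comp (ContinuousLinearMap.snd ℂ (Cm q) W)) i

theorem bmap_castAdd {k : ℕ} (κ : Fin k → W) (t : Cm q) (w : W) (j : Fin q) :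
    bmap q κ (t, w) (Fin.castAdd k j) = t j := by
  simp [bmap]

theorem bmap_natAdd {k : ℕ} (κ : Fin k → W) (t : Cm q) (w : W) (a : Fin k) :
    bmap q κ (t, w) (Fin.natAdd q a) = inner ℂ (κ a) w := by
  simp [bmap]

theorem gfM_eq {k : ℕ} (L : Cm n →L[ℂ] Cm q) (Θ : Cm n → W) (κ : Fin k → W)
    (ξ : Fin (q + k) → Cm n) :
    gfM L Θ κ ξ = Matrix.of fun i c => bmap q κ (L (ξ c), Θ (ξ c)) i := by
  ext i c
  refine Fin.addCases (fun j => ?_) (fun a => ?_) i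
  · simp only [gfM, Matrix.of_apply, Fin.addCases_left, bmap_castAdd]
  · simp only [gfM, Matrix.of_apply, Fin.addCases_right, bmap_natAdd]

/-- a nonzero value of `O ∧ μ(Θ)` has a nonzero component -/
theorem exists_kappa {k : ℕ} {T : Type} [NormedAddCommGroup T] [InnerProductSpace ℂ T]
    (S : TPow W T k) (L : Cm n →L[ℂ] Cm q) (Θ : Cm n → W) (ξ : Fin (q + k) → Cm n)
    (h : gf k L Θ S.μ ξ ≠ 0) : ∃ κ : Fin k → W, (gfM L Θ κ ξ).det ≠ 0 := by
  by_contra hcon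
  push Not at hcon
  apply h
  have h1 : ∀ κ, inner ℂ (S.μ κ) (gf k L Θ S.μ ξ) = 0 := fun κ => by rw [inner_gf, hcon]
  rw [← inner_self_eq_zero (𝕜 := ℂ)]
  conv_lhs => rw [gf]
  rw [inner_smul_left, sum_inner, Finset.sum_eq_zero, mul_zero]
  intro σ _
  rw [inner_smul_left, inner_smul_left]
  have h2 := h1 fun a => Θ (ξ (σ (Fin.natAdd q a)))
  rw [gf] at h2
  rw [h2]
  simp

/-- the determinant with one more vertical vector `v` orthogonal to the `κ_a` -/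
theorem det_snoc {k : ℕ} (L : Cm n →L[ℂ] Cm q) (Θ : Cm n → W) (κ : Fin k → W)
    (ξ : Fin (q + k) → Cm n) (v : Cm n) (hv : bmap q κ (L v, Θ v) = 0) :
    (gfM L Θ (Fin.snoc (α := fun _ => W) κ (Θ v) : Fin (k + 1) → W)
      (Fin.snoc (α := fun _ => Cm n) ξ v : Fin (q + k + 1) → Cm n)).det =
      inner ℂ (Θ v) (Θ v) * (gfM L Θ κ ξ).det := by
  have hrow : ∀ (u : Cm n) (i : Fin (q + k)),
      bmap q (Fin.snoc (α := fun _ => W) κ (Θ v) : Fin (k + 1) → W) (L u, Θ u) i.castSucc =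
        bmap q κ (L u, Θ u) i := by
    intro u i
    refine Fin.addCases (fun j => ?_) (fun a => ?_) i
    · have e1 : (Fin.castAdd k j : Fin (q + k)).castSucc = Fin.castAdd (k + 1) j := rfl
      rw [e1, bmap_castAdd, bmap_castAdd]
    · have e1 : (Fin.natAdd q a : Fin (q + k)).castSucc = Fin.natAdd q a.castSucc := rfl
      rw [e1, bmap_natAdd, bmap_natAdd, Fin.snoc_castSucc]
  have hlast : ∀ u : Cm n,
      bmap q (Fin.snoc (α := fun _ => W) κ (Θ v) : Fin (k + 1) → W) (L u, Θ u) (Fin.last (q + k)) =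
        inner ℂ (Θ v) (Θ u) := by
    intro u
    have e1 : (Fin.last (q + k) : Fin (q + k + 1)) = Fin.natAdd q (Fin.last k) := rfl
    rw [e1, bmap_natAdd, Fin.snoc_last]
  rw [gfM_eq, gfM_eq, Matrix.det_succ_column _ (Fin.last (q + k)), Fin.sum_univ_castSucc,
    Finset.sum_eq_zero, zero_add]
  · rw [Matrix.of_apply, Fin.snoc_last, hlast]
    have e2 : ((-1 : ℂ) ^ ((Fin.last (q + k) : ℕ) + (Fin.last (q + k) : ℕ))) = 1 := by
      rw [← two_mul, pow_mul]; simp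
    rw [e2, one_mul]
    congr 2
    ext i c
    rw [Matrix.submatrix_apply, Matrix.of_apply, Matrix.of_apply, Fin.succAbove_last,
      Fin.snoc_castSucc, hrow]
  · intro i _
    rw [Matrix.of_apply, Fin.snoc_last, hrow, hv]
    simp

/-- Output of the local form lemma: `b = (t, ⟨f_a, F⟩)`, `S = O ∧ d(F ∘ b)`. -/
structure LocF {r : ℕ} (t : Cm n → Cm q) (s : Cm n → Cm n [⋀^Fin (q + 1)]→L[ℂ] W) (z₀ : Cm n)
    (b : Cm n → Cm (q + r)) (F : Cm (q + r) → W) (f : Fin r → W) : Prop where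
  b_an : AnalyticAt ℂ b z₀
  b_surj : Function.Surjective (fderiv ℂ b z₀)
  F_an : AnalyticAt ℂ F (b z₀)
  t_eq : ∀ᶠ z in 𝓝 z₀, t z = tq (b z)
  isW : ∀ᶠ z in 𝓝 z₀, IsW (fderiv ℂ t z) (s z) (fderiv ℂ (fun z => F (b z)) z)
  coord : ∀ᶠ x in 𝓝 (b z₀), ∀ a, inner ℂ (f a) (F x) = x (Fin.natAdd q a)
  dcoord : ∀ᶠ x in 𝓝 (b z₀), ∀ (a : Fin r) (c : Fin (q + r)),
    inner ℂ (f a) (fderiv ℂ F x (Pi.single c 1)) = if Fin.natAdd q a = c then 1 else 0

/-- **Local form** with given `f`. -/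
theorem locForm' [CompleteSpace W] {r : ℕ} {T₂ : Type}
    [NormedAddCommGroup T₂] [InnerProductSpace ℂ T₂] (S₂ : TPow W T₂ (r + 1))
    {t : Cm n → Cm q} {s : Cm n → Cm n [⋀^Fin (q + 1)]→L[ℂ] W} {z₀ : Cm n}
    (ht : AnalyticAt ℂ t z₀) (hs : AnalyticAt ℂ s z₀) (hc : ∀ᶠ z in 𝓝 z₀, extDeriv s z = 0)
    (hrel : ∀ᶠ z in 𝓝 z₀, ∀ (ξ : Fin (q + 1) → Cm n) (i j : Fin (q + 1)), i ≠ j →
      fderiv ℂ t z (ξ i) = 0 → fderiv ℂ t z (ξ j) = 0 → s z ξ = 0)
    (hsu : Function.Surjective (fderiv ℂ t z₀))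
    (hmax : ∀ᶠ z in 𝓝 z₀, ∀ Θ : Cm n →L[ℂ] W, IsW (fderiv ℂ t z) (s z) Θ →
      ∀ ξ, gf (r + 1) (fderiv ℂ t z) Θ S₂.μ ξ = 0) (κ : Fin r → W)
    (hne : ∀ Θ : Cm n →L[ℂ] W, IsW (fderiv ℂ t z₀) (s z₀) Θ →
      ∃ ξ, (gfM (fderiv ℂ t z₀) Θ κ ξ).det ≠ 0) :
    ∃ (b : Cm n → Cm (q + r)) (F : Cm (q + r) → W), LocF t s z₀ b F κ := by
  obtain ⟨G, hGan, hGW⟩ := rel_poincare ht hs hc hrel hsu
  obtain ⟨ξ, hκ⟩ := hne _ hGW.self_of_nhds
  set b : Cm n → Cm (q + r) := fun z => bmap q κ (t z, G z) with hb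
  have hban : AnalyticAt ℂ b z₀ := ((bmap q κ).analyticAt _).fun_comp (ht.prod hGan)
  have hbd : ∀ z, DifferentiableAt ℂ t z → DifferentiableAt ℂ G z → ∀ v,
      fderiv ℂ b z v = bmap q κ (fderiv ℂ t z v, fderiv ℂ G z v) := by
    intro z h1 h2 v
    have h3 : HasFDerivAt b ((bmap q κ).comp ((fderiv ℂ t z).prod (fderiv ℂ G z))) z :=
      (bmap q κ).hasFDerivAt.comp z (h1.hasFDerivAt.prodMk h2.hasFDerivAt)
    rw [h3.fderiv]
    rfl
  have hJ : ∀ z, DifferentiableAt ℂ t z → DifferentiableAt ℂ G z →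
      H619.Jd b z ξ = (gfM (fderiv ℂ t z) (fderiv ℂ G z) κ ξ).det := by
    intro z h1 h2
    rw [gfM_eq, H619.Jd]
    congr 1
    ext i c
    rw [Matrix.of_apply, Matrix.of_apply, hbd z h1 h2]
  have hJ0 : H619.Jd b z₀ ξ ≠ 0 := by
    rw [hJ z₀ ht.differentiableAt hGan.differentiableAt]; exact hκ
  have hsurj : Function.Surjective (fderiv ℂ b z₀) := H619.surj_of_Jd hJ0
  have hJne : ∀ᶠ z in 𝓝 z₀, H619.Jd b z ξ ≠ 0 :=
    (H619.jd_an hban ξ).continuousAt.eventually_ne hJ0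
  have hker : ∀ᶠ z in 𝓝 z₀, ∀ v, fderiv ℂ b z v = 0 → fderiv ℂ G z v = 0 := by
    filter_upwards [hJne, hGW, hmax, ht.eventually_analyticAt, hGan.eventually_analyticAt]
      with z h1 h2 h3 h4 h5
    intro v hv
    rw [hJ z h4.differentiableAt h5.differentiableAt] at h1
    rw [hbd z h4.differentiableAt h5.differentiableAt] at hv
    have h6 := det_snoc (fderiv ℂ t z) (fderiv ℂ G z) κ ξ v hv
    have h7 := h3 _ h2 (Fin.snoc (α := fun _ => Cm n) ξ v : Fin (q + r + 1) → Cm n)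
    have h8 := inner_gf S₂ (fderiv ℂ t z) (fderiv ℂ G z)
      (Fin.snoc (α := fun _ => W) κ (fderiv ℂ G z v) : Fin (r + 1) → W)
      (Fin.snoc (α := fun _ => Cm n) ξ v : Fin (q + r + 1) → Cm n)
    rw [h7, inner_zero_right] at h8
    have h9 : inner ℂ (fderiv ℂ G z v) (fderiv ℂ G z v) *
        (gfM (fderiv ℂ t z) (fderiv ℂ G z) κ ξ).det = 0 := by
      rw [← h6]; exact h8.symm
    rcases mul_eq_zero.1 h9 with h10 | h10
    · exact inner_self_eq_zero.1 h10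
    · exact absurd h10 h1
  obtain ⟨F, hFan, hF⟩ := exists_desc hban hsurj hGan hker
  have hcoord : ∀ᶠ x in 𝓝 (b z₀), ∀ a, inner ℂ (κ a) (F x) = x (Fin.natAdd q a) := by
    have h1 : map b (𝓝 z₀) = 𝓝 (b z₀) :=
      hban.hasStrictFDerivAt.map_nhds_eq_of_surj (LinearMap.range_eq_top.2 hsurj)
    rw [← h1, eventually_map]
    filter_upwards [hF] with z hz a
    rw [← hz, hb]
    simp only [bmap_natAdd]
  refine ⟨b, F, hban, hsurj, hFan, ?_, ?_, hcoord, ?_⟩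
  · filter_upwards with z
    funext j
    rw [hb]
    simp only [tq, bmap_castAdd]
  · filter_upwards [hGW, hF.eventually_nhds] with z h1 h2
    have h3 : fderiv ℂ (fun z => F (b z)) z = fderiv ℂ G z :=
      Filter.EventuallyEq.fderiv_eq (h2.mono fun z hz => hz.symm)
    rw [h3]
    exact h1
  · filter_upwards [hcoord.eventually_nhds, hFan.eventually_analyticAt] with x h1 h2
    intro a c
    have e1 : HasFDerivAt (fun x => inner ℂ (κ a) (F x)) ((innerSL ℂ (κ a)).comp (fderiv ℂ F x)) x :=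
      (innerSL ℂ (κ a)).hasFDerivAt.comp x h2.differentiableAt.hasFDerivAt
    have e2 : HasFDerivAt (fun x : Cm (q + r) => inner ℂ (κ a) (F x))
        (ContinuousLinearMap.proj (R := ℂ) (φ := fun _ : Fin (q + r) => ℂ)
          (Fin.natAdd q a)) x := by
      refine (ContinuousLinearMap.hasFDerivAt
        (ContinuousLinearMap.proj (R := ℂ) (φ := fun _ : Fin (q + r) => ℂ)
          (Fin.natAdd q a))).congr_of_eventuallyEq ?_
      filter_upwards [h1] with x hx using hx a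
    have e3 := DFunLike.congr_fun (e1.unique e2) (Pi.single c 1)
    have e4 : inner ℂ (κ a) (fderiv ℂ F x (Pi.single c 1)) =
        (Pi.single c (1 : ℂ) : Cm (q + r)) (Fin.natAdd q a) := e3
    rw [e4, Pi.single_apply]

/-- `Θ` on the kernel of `L` is determined by `S` -/
theorem isW_eqOn_ker {L : Cm n →L[ℂ] Cm q} (hL : Function.Surjective L)
    {S : Cm n [⋀^Fin (q + 1)]→L[ℂ] W} {Θ Θ' : Cm n →L[ℂ] W} (h : IsW L S Θ) (h' : IsW L S Θ')
    {η : Cm n} (hη : L η = 0) : Θ η = Θ' η := by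
  choose ε hε using fun i : Fin q => hL (Pi.single i 1)
  rw [← isW_sn h hε hη, ← isW_sn h' hε hη]

/-- the nonvanishing of the determinant does not depend on `Θ` -/
theorem gfM_det_congr {k : ℕ} {L : Cm n →L[ℂ] Cm q} (hL : Function.Surjective L)
    {S : Cm n [⋀^Fin (q + 1)]→L[ℂ] W} {Θ Θ' : Cm n →L[ℂ] W} (h : IsW L S Θ) (h' : IsW L S Θ')
    (κ : Fin k → W) (ξ : Fin (q + k) → Cm n) :
    (gfM L Θ κ ξ).det = (gfM L Θ' κ ξ).det := by
  choose ε hε using fun i : Fin q => hL (Pi.single i 1)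
  -- the rows differ by combinations of the first `q` rows
  set c : Fin k → Fin q → ℂ := fun a j => inner ℂ (κ a) (Θ (ε j) - Θ' (ε j)) with hc
  have hΘ : ∀ v, Θ v = Θ' v + ∑ j, L v j • (Θ (ε j) - Θ' (ε j)) := by
    intro v
    have h1 : L (v - ∑ j, L v j • ε j) = 0 := by
      rw [map_sub, map_sum]
      simp only [map_smul, hε]
      rw [sub_eq_zero]
      funext j
      simp [Finset.sum_apply, Pi.single_apply]
    have h2 := isW_eqOn_ker hL h h' h1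
    simp only [map_sub, map_sum, map_smul] at h2
    rw [sub_eq_iff_eq_add] at h2
    rw [h2]
    simp only [smul_sub, Finset.sum_sub_distrib]
    abel
  let P : Matrix (Fin (q + k)) (Fin (q + k)) ℂ := Matrix.of fun i j =>
    Fin.addCases (fun i' => Fin.addCases (fun j' => if i' = j' then 1 else 0) (fun _ => 0) j)
      (fun a => Fin.addCases (fun j' => c a j') (fun a' => if a = a' then 1 else 0) j) i
  have hM : gfM L Θ κ ξ = P * gfM L Θ' κ ξ := by
    ext i l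
    rw [Matrix.mul_apply, Fin.sum_univ_add]
    refine Fin.addCases (fun i' => ?_) (fun a => ?_) i
    · simp [P, gfM]
    · simp only [P, gfM, Matrix.of_apply, Fin.addCases_left, Fin.addCases_right]
      rw [hΘ, inner_add_right, inner_sum]
      simp only [inner_smul_right, hc, ite_mul, one_mul, zero_mul, Finset.sum_ite_eq,
        Finset.mem_univ, if_true]
      rw [add_comm]
      congr 1
      exact Finset.sum_congr rfl fun j _ => mul_comm _ _
  have hP : P.det = 1 := by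
    rw [Matrix.det_of_isLowerTriangular]
    · refine Finset.prod_eq_one fun i _ => ?_
      refine Fin.addCases (fun i' => ?_) (fun a => ?_) i <;> simp [P]
    · intro i j hij
      have hij' : i < j := hij
      revert hij'
      refine Fin.addCases (fun i' => ?_) (fun a => ?_) i <;>
        refine Fin.addCases (fun j' => ?_) (fun a' => ?_) j
      · intro h
        have : i' ≠ j' := fun h' => by subst h'; exact lt_irrefl _ h
        simp [P, this]
      · intro _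
        simp [P]
      · intro h
        rw [Fin.lt_def] at h
        simp at h
        omega
      · intro h
        have : a ≠ a' := fun h' => by subst h'; exact lt_irrefl _ h
        simp [P, this]
  rw [hM, Matrix.det_mul, hP, one_mul]

/-- **Local form.** -/
theorem locForm [CompleteSpace W] {r : ℕ} {T₁ T₂ : Type} [NormedAddCommGroup T₁]
    [InnerProductSpace ℂ T₁] [NormedAddCommGroup T₂] [InnerProductSpace ℂ T₂]
    (S₂ : TPow W T₂ (r + 1)) (S₁ : TPow W T₁ r)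
    {t : Cm n → Cm q} {s : Cm n → Cm n [⋀^Fin (q + 1)]→L[ℂ] W} {z₀ : Cm n}
    (ht : AnalyticAt ℂ t z₀) (hs : AnalyticAt ℂ s z₀) (hc : ∀ᶠ z in 𝓝 z₀, extDeriv s z = 0)
    (hrel : ∀ᶠ z in 𝓝 z₀, ∀ (ξ : Fin (q + 1) → Cm n) (i j : Fin (q + 1)), i ≠ j →
      fderiv ℂ t z (ξ i) = 0 → fderiv ℂ t z (ξ j) = 0 → s z ξ = 0)
    (hsu : Function.Surjective (fderiv ℂ t z₀))
    (hmax : ∀ᶠ z in 𝓝 z₀, ∀ Θ : Cm n →L[ℂ] W, IsW (fderiv ℂ t z) (s z) Θ →
      ∀ ξ, gf (r + 1) (fderiv ℂ t z) Θ S₂.μ ξ = 0)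
    (hne : ∀ Θ : Cm n →L[ℂ] W, IsW (fderiv ℂ t z₀) (s z₀) Θ →
      ∃ ξ, gf r (fderiv ℂ t z₀) Θ S₁.μ ξ ≠ 0) :
    ∃ (b : Cm n → Cm (q + r)) (F : Cm (q + r) → W) (f : Fin r → W), LocF t s z₀ b F f := by
  obtain ⟨G, hGan, hGW⟩ := rel_poincare ht hs hc hrel hsu
  obtain ⟨ξ, hξ⟩ := hne _ hGW.self_of_nhds
  obtain ⟨κ, hκ⟩ := exists_kappa S₁ _ _ ξ hξ
  obtain ⟨b, F, h⟩ := locForm' S₂ ht hs hc hrel hsu hmax κ fun Θ hΘ =>
    ⟨ξ, by rw [gfM_det_congr hsu hΘ hGW.self_of_nhds]; exact hκ⟩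
  exact ⟨b, F, κ, h⟩

/-- the datum of `O ∧ μ_(r+1)(Θ)`, `O ∧ μ_r(Θ)`, `Θ = dF` -/
def gfDat (q : ℕ) {r : ℕ} {T₁ T₀ : Type} [NormedAddCommGroup T₁] [InnerProductSpace ℂ T₁]
    [NormedAddCommGroup T₀] [InnerProductSpace ℂ T₀] (S₁ : TPow W T₁ (r + 1)) (S₀ : TPow W T₀ r)
    (F : Cm (q + (r + 1)) → W) : Dat q (q + (r + 1)) T₁ T₀ where
  t := tq
  v x := gf (r + 1) (tqL q (r + 1)) (fun v => fderiv ℂ F x v) S₁.μ fun c => Pi.single c 1
  w x i := ((-1 : ℂ) ^ (i : ℕ)) • gf r (tqL q (r + 1)) (fun v => fderiv ℂ F x v) S₀.μ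
    fun c : Fin (q + r) => (Pi.single (Fin.succAbove (i : Fin (q + r + 1)) c) 1 : Cm (q + r + 1))

theorem gf_an {m k : ℕ} {T : Type} [NormedAddCommGroup T] [NormedSpace ℂ T] {P : Type}
    [NormedAddCommGroup P] [NormedSpace ℂ P] (L : Cm m →L[ℂ] Cm q) {Θ : P → Cm m →L[ℂ] W}
    (μ : ContinuousMultilinearMap ℂ (fun _ : Fin k => W) T) (ξ : Fin (q + k) → Cm m) {x : P}
    (hΘ : AnalyticAt ℂ Θ x) : AnalyticAt ℂ (fun y => gf k L (fun v => Θ y v) μ ξ) x := by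
  unfold gf
  refine analyticAt_const.smul (Finset.analyticAt_fun_sum _ fun σ _ => ?_)
  refine analyticAt_const.smul (analyticAt_const.smul ?_)
  have h1 : AnalyticAt ℂ (fun y => fun a : Fin k => Θ y (ξ (σ (Fin.natAdd q a)))) x := by
    rw [analyticAt_pi_iff]
    intro a
    exact ((ContinuousLinearMap.apply ℂ W (ξ (σ (Fin.natAdd q a)))).analyticAt _).fun_comp hΘ
  exact AnalyticAt.fun_comp (g := fun w => μ w) μ.analyticAt h1

theorem gfDat_An {r : ℕ} {T₁ T₀ : Type} [NormedAddCommGroup T₁] [InnerProductSpace ℂ T₁]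
    [NormedAddCommGroup T₀] [InnerProductSpace ℂ T₀] [CompleteSpace W] (S₁ : TPow W T₁ (r + 1))
    (S₀ : TPow W T₀ r) {F : Cm (q + (r + 1)) → W} {x₀ : Cm (q + (r + 1))}
    (hF : AnalyticAt ℂ F x₀) : (gfDat q S₁ S₀ F).An x₀ := by
  refine ⟨?_, ?_, ?_⟩
  · exact (tqL q (r + 1)).analyticAt x₀
  · exact gf_an (Θ := fderiv ℂ F) (tqL q (r + 1)) S₁.μ (fun c => Pi.single c 1) hF.fderiv
  · rw [analyticAt_pi_iff]
    intro i
    exact analyticAt_const.smul (gf_an (m := q + (r + 1)) (Θ := fderiv ℂ F) (tqL q (r + 1)) S₀.μ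
      (fun c : Fin (q + r) => (Pi.single (Fin.succAbove (i : Fin (q + r + 1)) c) 1 :
        Cm (q + r + 1))) hF.fderiv)

section out
variable {r : ℕ} {T₁ T₀ : Type} [NormedAddCommGroup T₁]
  [InnerProductSpace ℂ T₁] [CompleteSpace T₁] [NormedAddCommGroup T₀] [InnerProductSpace ℂ T₀]
  [CompleteSpace T₀] [CompleteSpace W] {t : Cm n → Cm q}
  {s : Cm n → Cm n [⋀^Fin (q + 1)]→L[ℂ] W} {z₀ : Cm n} {b : Cm n → Cm (q + (r + 1))}
  {F : Cm (q + (r + 1)) → W} {f : Fin (r + 1) → W}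

/-- the datum of the local form is adapted -/
theorem LocF.adC (h : LocF t s z₀ b F f) (S₁ : TPow W T₁ (r + 1)) (S₀ : TPow W T₀ r) :
    AdC (gfDat q S₁ S₀ F) F (b z₀) (S₁.μ f)
      (fun a => ((-1 : ℂ) ^ (q + (a : ℕ))) • S₀.μ (f ∘ a.succAbove))
      (fun a h => S₁.μ (Function.update f a h)) :=
  adC_of S₁ S₀ (gfDat_An S₁ S₀ h.F_an) ⟨0, Eventually.of_forall fun _ => (add_zero _).symm⟩ h.F_an f
    h.dcoord (Eventually.of_forall fun _ => rfl) (Eventually.of_forall fun _ _ => rfl)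

omit [CompleteSpace T₁] [CompleteSpace T₀] in
theorem LocF.deriv (h : LocF t s z₀ b F f) : ∀ᶠ z in 𝓝 z₀,
    fderiv ℂ t z = (tqL q (r + 1)).comp (fderiv ℂ b z) ∧
    fderiv ℂ (fun z => F (b z)) z = (fderiv ℂ F (b z)).comp (fderiv ℂ b z) := by
  filter_upwards [h.t_eq.eventually_nhds, h.b_an.eventually_analyticAt,
    h.b_an.continuousAt.eventually h.F_an.eventually_analyticAt] with z h1 h2 h3
  refine ⟨?_, ?_⟩
  · have e1 : HasFDerivAt (fun z => tqL q (r + 1) (b z))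
        ((tqL q (r + 1)).comp (fderiv ℂ b z)) z :=
      (tqL q (r + 1)).hasFDerivAt.comp z h2.differentiableAt.hasFDerivAt
    have e2 : t =ᶠ[𝓝 z] fun z => tqL q (r + 1) (b z) := h1
    rw [e2.fderiv_eq, e1.fderiv]
  · exact (h3.differentiableAt.hasFDerivAt.comp z h2.differentiableAt.hasFDerivAt).fderiv

/-- the form `G_(r+1)` is the pull-back of the density `v` -/
theorem LocF.v_eq (h : LocF t s z₀ b F f) (S₁ : TPow W T₁ (r + 1)) (S₀ : TPow W T₀ r) :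
    ∀ᶠ z in 𝓝 z₀, ∀ ξ : Fin (q + r + 1) → Cm n,
      gf (r + 1) (fderiv ℂ t z) (fun v => fderiv ℂ (fun z => F (b z)) z v) S₁.μ ξ =
        (dm (R := q + r + 1) b z ξ).det • (gfDat q S₁ S₀ F).v (b z) := by
  filter_upwards [h.deriv] with z hz
  intro ξ
  obtain ⟨h1, h2⟩ := hz
  have h3 := gf_comp (k := r + 1) (fderiv ℂ b z) (tqL q (r + 1)) (fderiv ℂ F (b z))
    S₁.μ.toMultilinearMap ξ
  rw [h1, h2]
  exact h3

/-- the form `G_r` is the pull-back of the vector density `w` -/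
theorem LocF.w_eq (h : LocF t s z₀ b F f) (S₁ : TPow W T₁ (r + 1)) (S₀ : TPow W T₀ r) :
    ∀ᶠ z in 𝓝 z₀, ∀ (ξ : Fin (q + r + 1) → Cm n) (i : Fin (q + r + 1)),
      ((-1 : ℂ) ^ (i : ℕ) • gf r (fderiv ℂ t z) (fun v => fderiv ℂ (fun z => F (b z)) z v) S₀.μ
        fun l : Fin (q + r) => ξ (i.succAbove l)) =
        ∑ j, (dm (R := q + r + 1) b z ξ).adjugate i j • (gfDat q S₁ S₀ F).w (b z) j := by
  filter_upwards [h.deriv] with z hz
  intro ξ i
  obtain ⟨h1, h2⟩ := hz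
  rw [h1, h2]
  have h3 := adj_alt (wf (tqL q (r + 1) : Cm (q + r + 1) →ₗ[ℂ] Cm q)
    (fderiv ℂ F (b z) : Cm (q + r + 1) →ₗ[ℂ] W) S₀.μ.toMultilinearMap)
    (dm (R := q + r + 1) b z ξ).transpose (fun c => (Pi.single c 1 : Cm (q + r + 1))) i
  rw [Matrix.transpose_transpose] at h3
  have h4 : ∀ l : Fin (q + r + 1), (∑ m, (dm (R := q + r + 1) b z ξ).transpose l m •
      (Pi.single m 1 : Cm (q + r + 1))) = fderiv ℂ b z (ξ l) := by
    intro l
    funext c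
    simp [Finset.sum_apply, Pi.single_apply, dm]
  simp only [h4] at h3
  have h5 := gf_eq_wf ((tqL q (r + 1)).comp (fderiv ℂ b z)) ((fderiv ℂ F (b z)).comp (fderiv ℂ b z))
    S₀.μ.toMultilinearMap fun l : Fin (q + r) => ξ (i.succAbove l)
  have h6 : wf (((tqL q (r + 1)).comp (fderiv ℂ b z) : Cm n →L[ℂ] Cm q) : Cm n →ₗ[ℂ] Cm q)
      (((fderiv ℂ F (b z)).comp (fderiv ℂ b z) : Cm n →L[ℂ] W) : Cm n →ₗ[ℂ] W)
      S₀.μ.toMultilinearMap (fun l : Fin (q + r) => ξ (i.succAbove l)) =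
      wf (tqL q (r + 1) : Cm (q + r + 1) →ₗ[ℂ] Cm q)
        (fderiv ℂ F (b z) : Cm (q + r + 1) →ₗ[ℂ] W) S₀.μ.toMultilinearMap
        (fun l : Fin (q + r) => fderiv ℂ b z (ξ (i.succAbove l))) := by
    rw [wf_apply, wf_apply]
    rfl
  have h7 := h5.trans h6
  have h8 : (gf r ((tqL q (r + 1)).comp (fderiv ℂ b z))
      (fun v => ((fderiv ℂ F (b z)).comp (fderiv ℂ b z)) v) S₀.μ
      fun l : Fin (q + r) => ξ (i.succAbove l)) = _ := h7
  rw [h8, h3]
  refine Finset.sum_congr rfl fun j _ => ?_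
  congr 1
  show _ = ((-1 : ℂ) ^ (j : ℕ)) • gf r (tqL q (r + 1)) (fun v => fderiv ℂ F (b z) v) S₀.μ
    fun c : Fin (q + r) => (Pi.single (j.succAbove c) 1 : Cm (q + r + 1))
  congr 1
  exact (gf_eq_wf (n := q + r + 1) (tqL q (r + 1)) (fderiv ℂ F (b z)) S₀.μ.toMultilinearMap
    fun c : Fin (q + r) => (Pi.single (j.succAbove c) 1 : Cm (q + r + 1))).symm

end out

end loc

end Vale.Agent.P284.H625
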