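import Vale.Agent.P284.H625.NS.Clo

/-!
# P284 (helper625), module NS: constancy of the planes, local summary

helper15's remark: by the Plücker sections with `s - 1` natural functions and `k + 1` linear functions
of `t`, the planes `Q = dt(ker d𝓕)` do not depend on the point at all.
-/

open scoped Topology
open Filter

noncomputable section

namespace Vale.Agent.P284.H625

open Vale.Agent.P272.K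

/-- `𝓕` is closed under Jacobian determinants of functions of `𝓕` and linear functions of `t`. -/
def Plu (q r : ℕ) (𝓕 : Set (Cm (q + r) → ℂ)) : Prop :=
  ∀ (s k : ℕ) (e : Fin s ⊕ Fin k ≃ Fin (q + r)) (g : Fin s → Cm (q + r) → ℂ) (_ : ∀ i, g i ∈ 𝓕)
    (α : Fin k → Cm q →L[ℂ] ℂ),
    (fun x => (Matrix.of fun i j : Fin s ⊕ Fin k =>
      Sum.elim (fun a => fderiv ℂ (g a) x (Pi.single (e j) 1))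
        (fun b => α b (tq (Pi.single (e j) 1))) i).det) ∈ 𝓕

/-- The common kernel of the `df i`. -/
def KerF {R s : ℕ} (f : Fin s → Cm R → ℂ) (x : Cm R) : Submodule ℂ (Cm R) :=
  ⨅ i, LinearMap.ker (fderiv ℂ (f i) x : Cm R →ₗ[ℂ] ℂ)

/-- **Q is constant.** -/
def QConstStmt : Prop :=
  ∀ (q r k s : ℕ) (_ : Fin s ⊕ Fin k ≃ Fin (q + r)) (x₀ : Cm (q + r))
    (𝓕 : Set (Cm (q + r) → ℂ)) (_ : ∀ f ∈ 𝓕, AnalyticAt ℂ f x₀) (_ : Plu q r 𝓕)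
    (f : Fin s → Cm (q + r) → ℂ) (_ : ∀ i, f i ∈ 𝓕)
    (_ : ∀ y : Fin s → ℂ, ∃ ξ : Cm (q + r), ∀ i, fderiv ℂ (f i) x₀ ξ = y i)
    (_ : ∀ g ∈ 𝓕, ∀ᶠ x in 𝓝 x₀, ∀ ξ : Cm (q + r),
      (∀ i, fderiv ℂ (f i) x ξ = 0) → fderiv ℂ g x ξ = 0)
    (_ : ∀ ξ : Cm (q + r), (∀ i, fderiv ℂ (f i) x₀ ξ = 0) → tq ξ = 0 → ξ = 0),
    ∀ᶠ x in 𝓝 x₀, ∀ ξ : Cm (q + r), (∀ i, fderiv ℂ (f i) x ξ = 0) →
      ∃ ξ₀ : Cm (q + r), (∀ i, fderiv ℂ (f i) x₀ ξ₀ = 0) ∧ tq ξ = tq ξ₀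

/-- The isotriviality package at `x₀` with constant planes `t + N ℂ^k`. -/
def IsoPkgC (q r k s : ℕ) (W : Type) [NormedAddCommGroup W] [InnerProductSpace ℂ W]
    (x₀ : Cm (q + r)) (𝓕 : Set (Cm (q + r) → ℂ)) (F : Cm (q + r) → W)
    (f : Fin s → Cm (q + r) → ℂ) : Prop :=
  ∃ (N : Cm k →L[ℂ] Cm q) (Φ : Cm (q + r) × Cm k → Cm (q + r)) (C : Cm q × Cm k → W),
    Function.Injective N ∧ AnalyticAt ℂ Φ (x₀, 0) ∧ AnalyticAt ℂ C (tq x₀, 0) ∧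
    (∀ᶠ x in 𝓝 x₀, Φ (x, 0) = x) ∧
    (∀ᶠ p in 𝓝 ((x₀, 0) : Cm (q + r) × Cm k), tq (Φ p) = tq p.1 + N p.2) ∧
    (∀ᶠ p in 𝓝 ((x₀, 0) : Cm (q + r) × Cm k), F (Φ p) = F p.1 + C (tq p.1, p.2)) ∧
    (∀ g ∈ 𝓕, ∀ᶠ p in 𝓝 ((x₀, 0) : Cm (q + r) × Cm k), g (Φ p) = g p.1) ∧
    (∀ᶠ p in 𝓝 ((x₀, x₀) : Cm (q + r) × Cm (q + r)), (∀ i, f i p.1 = f i p.2) →
      ∃ y : Cm k, p.2 = Φ (p.1, y) ∧ tq p.2 = tq p.1 + N y) ∧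
    (∀ᶠ x in 𝓝 x₀, ∀ ξ : Cm (q + r), (∀ i, fderiv ℂ (f i) x ξ = 0) → ∃ y, tq ξ = N y)

/-- **HC**: the isotriviality package with constant planes. -/
def HCStmt : Prop :=
  ∀ (q r k s : ℕ) (_ : Fin s ⊕ Fin k ≃ Fin (q + r)) (_ : 1 ≤ k) (W : Type)
    [NormedAddCommGroup W] [InnerProductSpace ℂ W] [CompleteSpace W]
    (x₀ : Cm (q + r)) (𝓕 : Set (Cm (q + r) → ℂ)) (F : Cm (q + r) → W)
    (_ : ∀ f ∈ 𝓕, AnalyticAt ℂ f x₀)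
    (_ : ∀ f ∈ 𝓕, ∀ a : Fin r, (fun x => fderiv ℂ f x (ey a)) ∈ 𝓕)
    (_ : AnalyticAt ℂ F x₀)
    (_ : ∀ (a : Fin r) (h : W), (fun x => inner ℂ h (fderiv ℂ F x (ey a))) ∈ 𝓕)
    (f : Fin s → Cm (q + r) → ℂ) (_ : ∀ i, f i ∈ 𝓕)
    (_ : ∀ y : Fin s → ℂ, ∃ ξ : Cm (q + r), ∀ i, fderiv ℂ (f i) x₀ ξ = y i)
    (_ : ∀ g ∈ 𝓕, ∀ᶠ x in 𝓝 x₀, ∀ ξ : Cm (q + r),
      (∀ i, fderiv ℂ (f i) x ξ = 0) → fderiv ℂ g x ξ = 0)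
    (_ : ∀ ξ : Cm (q + r), (∀ i, fderiv ℂ (f i) x₀ ξ = 0) → tq ξ = 0 → ξ = 0)
    (_ : Plu q r 𝓕),
    IsoPkgC q r k s W x₀ 𝓕 F f

end Vale.Agent.P284.H625
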