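import Vale.Agent.P272.K.Stmt
import Mathlib.Analysis.InnerProductSpace.PiL2
import Mathlib.Analysis.InnerProductSpace.ProdL2
import Mathlib.Analysis.Calculus.FDeriv.Analytic
import Mathlib.LinearAlgebra.Matrix.Adjugate

/-!
# P284 (helper625), module NS: natural operators on slices, definitions

`Dat q R H₁ H₂` is a datum `(t, v, w)` on (an open piece of) a slice `ℂ^R`: `t : ℂ^R → ℂ^q` a map,
`v` the coefficient of an `H₁`-valued `R`-form `O ∧ Λ^r Θ`, `w = (w_i)` the components (as a vector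
density) of an `H₂`-valued `(R-1)`-form `O ∧ Λ^{r-1} Θ`.  A *natural operator* of weight `m` attaches
to such a datum a function with values in a Hilbert space `H`, in a local, analytic way, compatible
with pullback (weight `m`) and with isometries of `H₁`, `H₂` and translations of `t`.
-/

open scoped Topology
open Filter

noncomputable section

namespace Vale.Agent.P284.H625

open Vale.Agent.P272.K

/-- The Jacobian matrix of `h : ℂ^R → ℂ^R`, column `j` is `∂h/∂x_j`. -/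
def jac {R : ℕ} (h : Cm R → Cm R) (x : Cm R) : Matrix (Fin R) (Fin R) ℂ :=
  Matrix.of fun i j => fderiv ℂ h x (Pi.single j 1) i

/-- A datum on a slice. -/
structure Dat (q R : ℕ) (H₁ H₂ : Type) where
  t : Cm R → Cm q
  v : Cm R → H₁
  w : Cm R → Fin R → H₂

section
variable {q R : ℕ} {H₁ H₂ : Type} [NormedAddCommGroup H₁] [InnerProductSpace ℂ H₁]
  [NormedAddCommGroup H₂] [InnerProductSpace ℂ H₂]

/-- The datum is analytic at `x`. -/
def Dat.An (D : Dat q R H₁ H₂) (x : Cm R) : Prop :=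
  AnalyticAt ℂ D.t x ∧ AnalyticAt ℂ D.v x ∧ AnalyticAt ℂ D.w x

/-- Pullback of a datum. -/
def Dat.pull (D : Dat q R H₁ H₂) (h : Cm R → Cm R) : Dat q R H₁ H₂ where
  t x := D.t (h x)
  v x := (jac h x).det • D.v (h x)
  w x i := ∑ j, (jac h x).adjugate i j • D.w (h x) j

/-- Change of a datum by isometries and a translation. -/
def Dat.act (D : Dat q R H₁ H₂) (U₁ : H₁ →ₗᵢ[ℂ] H₁) (U₂ : H₂ →ₗᵢ[ℂ] H₂) (c : Cm q) :
    Dat q R H₁ H₂ where
  t x := D.t x + c
  v x := U₁ (D.v x)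
  w x i := U₂ (D.w x i)

/-- The data `D p` depend analytically on `p` and on the point. -/
def JAn {P : Type} [NormedAddCommGroup P] [NormedSpace ℂ P] (D : P → Dat q R H₁ H₂) (p : P)
    (x : Cm R) : Prop :=
  AnalyticAt ℂ (fun y : P × Cm R => (D y.1).t y.2) (p, x) ∧
  AnalyticAt ℂ (fun y : P × Cm R => (D y.1).v y.2) (p, x) ∧
  AnalyticAt ℂ (fun y : P × Cm R => (D y.1).w y.2) (p, x)

/-- The two data agree near `x`. -/
def Dat.Eqv (D D' : Dat q R H₁ H₂) (x : Cm R) : Prop :=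
  D.t =ᶠ[𝓝 x] D'.t ∧ D.v =ᶠ[𝓝 x] D'.v ∧ D.w =ᶠ[𝓝 x] D'.w

variable (q R H₁ H₂) in
/-- A natural operator of weight `m` with values in `H`. -/
structure NatOp (m : ℕ) (H : Type) [NormedAddCommGroup H] [InnerProductSpace ℂ H] where
  op : Dat q R H₁ H₂ → Cm R → H
  loc : ∀ D D' x, D.Eqv D' x → op D x = op D' x
  an : ∀ (P : Type) [NormedAddCommGroup P] [NormedSpace ℂ P] (D : P → Dat q R H₁ H₂) (p : P)
    (x : Cm R), JAn D p x → AnalyticAt ℂ (fun y : P × Cm R => op (D y.1) y.2) (p, x)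
  pull : ∀ (D : Dat q R H₁ H₂) (h : Cm R → Cm R) (x : Cm R), AnalyticAt ℂ h x → D.An (h x) →
    op (D.pull h) x = (jac h x).det ^ m • op D (h x)
  iso : ∀ (U₁ : H₁ →ₗᵢ[ℂ] H₁) (U₂ : H₂ →ₗᵢ[ℂ] H₂), ∃ U : H →ₗᵢ[ℂ] H, ∀ (c : Cm q) D x,
    D.An x → op (D.act U₁ U₂ c) x = U (op D x)

variable (q R H₁ H₂) in
/-- A natural `1`-form operator of weight `m` with values in `K`. -/
structure NatForm (m : ℕ) (K : Type) [NormedAddCommGroup K] [InnerProductSpace ℂ K] where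
  op : Dat q R H₁ H₂ → Cm R → Fin R → K
  loc : ∀ D D' x, D.Eqv D' x → op D x = op D' x
  an : ∀ (P : Type) [NormedAddCommGroup P] [NormedSpace ℂ P] (D : P → Dat q R H₁ H₂) (p : P)
    (x : Cm R), JAn D p x → AnalyticAt ℂ (fun y : P × Cm R => op (D y.1) y.2) (p, x)
  pull : ∀ (D : Dat q R H₁ H₂) (h : Cm R → Cm R) (x : Cm R), AnalyticAt ℂ h x → D.An (h x) →
    ∀ i, op (D.pull h) x i = (jac h x).det ^ m • ∑ j, jac h x j i • op D (h x) j
  iso : ∀ (U₁ : H₁ →ₗᵢ[ℂ] H₁) (U₂ : H₂ →ₗᵢ[ℂ] H₂), ∃ U : K →ₗᵢ[ℂ] K, ∀ (c : Cm q) D x,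
    D.An x → ∀ i, op (D.act U₁ U₂ c) x i = U (op D x i)

end

end Vale.Agent.P284.H625
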