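import Vale.Agent.P284.H625.NS.Sheet

/-!
# P284 (helper625), module NS: the alternating form `O ∧ μ(Θ, …, Θ)` (code of helper338)
-/

noncomputable section

namespace Vale.Agent.P284.H625

open Vale.Agent.P272.K

section wf
variable {M : Type} [AddCommGroup M] [Module ℂ M] {W T : Type} [AddCommGroup W] [Module ℂ W]
  [AddCommGroup T] [Module ℂ T]

/-- the multilinear map `ξ ↦ (∏_j A(ξ_j)_j) μ(B ξ_(q+1), …, B ξ_(q+r))` -/
def wm {q r : ℕ} (A : M →ₗ[ℂ] Cm q) (B : M →ₗ[ℂ] W) (μ : MultilinearMap ℂ (fun _ : Fin r => W) T) :
    MultilinearMap ℂ (fun _ : Fin (q + r) => M) T where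
  toFun ξ := (∏ j, A (ξ (Fin.castAdd r j)) j) • μ fun a => B (ξ (Fin.natAdd q a))
  map_update_add' := by
    intro _ ξ i x y
    have hd : ∀ inst : DecidableEq (Fin (q + r)), inst = instDecidableEqFin _ := fun _ =>
      Subsingleton.elim _ _
    obtain rfl := hd ‹_›
    refine Fin.addCases (fun j => ?_) (fun a => ?_) i
    · have h1 : ∀ u : M, (fun a => B (Function.update ξ (Fin.castAdd r j) u (Fin.natAdd q a))) =
          fun a => B (ξ (Fin.natAdd q a)) := by
        intro u
        funext a
        rw [Function.update_of_ne]
        intro h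
        have := congrArg Fin.val h
        simp at this
        omega
      have h2 : ∀ u : M, (∏ l, A (Function.update ξ (Fin.castAdd r j) u (Fin.castAdd r l)) l) =
          A u j * ∏ l ∈ Finset.univ.erase j, A (ξ (Fin.castAdd r l)) l := by
        intro u
        rw [← Finset.mul_prod_erase _ _ (Finset.mem_univ j)]
        simp only [Function.update_self]
        congr 1
        refine Finset.prod_congr rfl fun l hl => ?_
        rw [Function.update_of_ne]
        intro h
        exact (Finset.ne_of_mem_erase hl) (Fin.castAdd_injective q r h)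
      rw [h1, h1, h1, h2, h2, h2, map_add, Pi.add_apply, add_mul, add_smul]
    · have h1 : ∀ u : M, (∏ l, A (Function.update ξ (Fin.natAdd q a) u (Fin.castAdd r l)) l) =
          ∏ l, A (ξ (Fin.castAdd r l)) l := by
        intro u
        refine Finset.prod_congr rfl fun l _ => ?_
        rw [Function.update_of_ne]
        intro h
        have := congrArg Fin.val h
        simp at this
        omega
      have h2 : ∀ u : M, (fun c => B (Function.update ξ (Fin.natAdd q a) u (Fin.natAdd q c))) =
          Function.update (fun c => B (ξ (Fin.natAdd q c))) a (B u) := by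
        intro u
        funext c
        by_cases hc : c = a
        · subst hc; simp
        · rw [Function.update_of_ne hc, Function.update_of_ne]
          intro h
          exact hc (Fin.natAdd_injective r q h)
      rw [h1, h1, h1, h2, h2, h2, map_add, MultilinearMap.map_update_add, smul_add]
  map_update_smul' := by
    intro _ ξ i c x
    have hd : ∀ inst : DecidableEq (Fin (q + r)), inst = instDecidableEqFin _ := fun _ =>
      Subsingleton.elim _ _
    obtain rfl := hd ‹_›
    refine Fin.addCases (fun j => ?_) (fun a => ?_) i
    · have h1 : ∀ u : M, (fun a => B (Function.update ξ (Fin.castAdd r j) u (Fin.natAdd q a))) =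
          fun a => B (ξ (Fin.natAdd q a)) := by
        intro u
        funext a
        rw [Function.update_of_ne]
        intro h
        have := congrArg Fin.val h
        simp at this
        omega
      have h2 : ∀ u : M, (∏ l, A (Function.update ξ (Fin.castAdd r j) u (Fin.castAdd r l)) l) =
          A u j * ∏ l ∈ Finset.univ.erase j, A (ξ (Fin.castAdd r l)) l := by
        intro u
        rw [← Finset.mul_prod_erase _ _ (Finset.mem_univ j)]
        simp only [Function.update_self]
        congr 1
        refine Finset.prod_congr rfl fun l hl => ?_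
        rw [Function.update_of_ne]
        intro h
        exact (Finset.ne_of_mem_erase hl) (Fin.castAdd_injective q r h)
      rw [h1, h1, h2, h2, map_smul, Pi.smul_apply, smul_eq_mul, mul_assoc, smul_smul]
    · have h1 : ∀ u : M, (∏ l, A (Function.update ξ (Fin.natAdd q a) u (Fin.castAdd r l)) l) =
          ∏ l, A (ξ (Fin.castAdd r l)) l := by
        intro u
        refine Finset.prod_congr rfl fun l _ => ?_
        rw [Function.update_of_ne]
        intro h
        have := congrArg Fin.val h
        simp at this
        omega
      have h2 : ∀ u : M, (fun c => B (Function.update ξ (Fin.natAdd q a) u (Fin.natAdd q c))) =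
          Function.update (fun c => B (ξ (Fin.natAdd q c))) a (B u) := by
        intro u
        funext c
        by_cases hc : c = a
        · subst hc; simp
        · rw [Function.update_of_ne hc, Function.update_of_ne]
          intro h
          exact hc (Fin.natAdd_injective r q h)
      rw [h1, h1, h2, h2, map_smul, MultilinearMap.map_update_smul, smul_comm]

/-- the value on `ξ` of the form `dt_1 ∧ … ∧ dt_q ∧ μ(Θ, …, Θ)`, `A = dt`, `B = Θ` (no factorials) -/
def wf {q r : ℕ} (A : M →ₗ[ℂ] Cm q) (B : M →ₗ[ℂ] W) (μ : MultilinearMap ℂ (fun _ : Fin r => W) T) :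
    M [⋀^Fin (q + r)]→ₗ[ℂ] T :=
  MultilinearMap.alternatization (wm A B μ)

lemma wf_apply {q r : ℕ} (A : M →ₗ[ℂ] Cm q) (B : M →ₗ[ℂ] W)
    (μ : MultilinearMap ℂ (fun _ : Fin r => W) T) (ξ : Fin (q + r) → M) :
    wf A B μ ξ = ∑ σ : Equiv.Perm (Fin (q + r)), (Equiv.Perm.sign σ : ℤ) •
      ((∏ j, A (ξ (σ (Fin.castAdd r j))) j) • μ fun a => B (ξ (σ (Fin.natAdd q a)))) := by
  rw [wf, MultilinearMap.alternatization_apply]
  rfl

end wf

end Vale.Agent.P284.H625
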