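import Vale.Agent.P284.H625.NS.RelP
import Vale.Agent.P284.H625.NS.Wf
import Vale.Agent.P284.H338.ES

/-!
# P284 (helper625), module NS: the forms `O ∧ μ(Θ, …, Θ)` are alternating
-/

open scoped Topology
open Filter

noncomputable section

set_option linter.unusedSectionVars false

namespace Vale.Agent.P284.H625

open Vale.Agent.P272.K Vale.Agent.P284.H501 Vale.Agent.P284.H338

section
variable {n q k : ℕ} {W T : Type} [NormedAddCommGroup W] [NormedSpace ℂ W]
  [NormedAddCommGroup T] [NormedSpace ℂ T]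

/-- `gf` is the alternatization without factorials -/
theorem gf_eq_wf (L : Cm n →L[ℂ] Cm q) (Θ : Cm n →L[ℂ] W)
    (μ : MultilinearMap ℂ (fun _ : Fin k => W) T) (ξ : Fin (q + k) → Cm n) :
    gf k L Θ μ ξ = wf (L : Cm n →ₗ[ℂ] Cm q) (Θ : Cm n →ₗ[ℂ] W) μ ξ := by
  rw [wf_apply]
  have h1 : ∀ σ : Equiv.Perm (Fin (q + k)),
      (((Equiv.Perm.sign σ : ℤ) : ℂ) •
        ((Matrix.of fun i j : Fin q => L (ξ (σ (Fin.castAdd k i))) j).det •
          μ fun a => Θ (ξ (σ (Fin.natAdd q a))))) =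
      ∑ π : Equiv.Perm (Fin q), ((Equiv.Perm.sign (σ * permL k π) : ℤ) : ℂ) •
        ((∏ j, L (ξ ((σ * permL k π) (Fin.castAdd k j))) j) •
          μ fun a => Θ (ξ ((σ * permL k π) (Fin.natAdd q a)))) := by
    intro σ
    rw [Matrix.det_apply, Finset.sum_smul, Finset.smul_sum]
    refine Finset.sum_congr rfl fun π _ => ?_
    rw [map_mul, sign_permL]
    simp only [Matrix.of_apply, Equiv.Perm.coe_mul, Function.comp_apply, permL_castAdd,
      permL_natAdd]
    rw [Units.smul_def, ← Int.cast_smul_eq_zsmul ℂ, smul_smul, smul_eq_mul, smul_smul]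
    congr 1
    push_cast
    ring
  have h2 : ∀ π : Equiv.Perm (Fin q), ∑ σ : Equiv.Perm (Fin (q + k)),
      ((Equiv.Perm.sign (σ * permL k π) : ℤ) : ℂ) •
        ((∏ j, L (ξ ((σ * permL k π) (Fin.castAdd k j))) j) •
          μ fun a => Θ (ξ ((σ * permL k π) (Fin.natAdd q a)))) =
      ∑ σ : Equiv.Perm (Fin (q + k)), (Equiv.Perm.sign σ : ℤ) •
        ((∏ j, (L : Cm n →ₗ[ℂ] Cm q) (ξ (σ (Fin.castAdd k j))) j) •
          μ fun a => (Θ : Cm n →ₗ[ℂ] W) (ξ (σ (Fin.natAdd q a)))) := by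
    intro π
    refine Fintype.sum_equiv (Equiv.mulRight (permL k π)) _ _ fun σ => ?_
    rw [Int.cast_smul_eq_zsmul ℂ]
    rfl
  rw [gf, Finset.sum_congr rfl fun σ _ => h1 σ, Finset.sum_comm,
    Finset.sum_congr rfl fun π _ => h2 π]
  rw [Finset.sum_const, Finset.card_univ, Fintype.card_perm, Fintype.card_fin,
    ← Nat.cast_smul_eq_nsmul ℂ, smul_smul, inv_mul_cancel₀, one_smul]
  exact_mod_cast (Nat.factorial_pos q).ne'

/-- `gf` of a pull-back by `B : Cm n → Cm (q + k)` -/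
theorem gf_comp (B : Cm n →L[ℂ] Cm (q + k)) (L : Cm (q + k) →L[ℂ] Cm q) (Θ : Cm (q + k) →L[ℂ] W)
    (μ : MultilinearMap ℂ (fun _ : Fin k => W) T) (ξ : Fin (q + k) → Cm n) :
    gf k (L.comp B) (Θ.comp B) μ ξ = (Matrix.of fun i j => B (ξ j) i).det •
      gf k L Θ μ fun c => Pi.single c 1 := by
  rw [gf_eq_wf, gf_eq_wf]
  have h1 : wf (L.comp B : Cm n →ₗ[ℂ] Cm q) (Θ.comp B : Cm n →ₗ[ℂ] W) μ ξ =
      wf (L : Cm (q + k) →ₗ[ℂ] Cm q) (Θ : Cm (q + k) →ₗ[ℂ] W) μ fun i => B (ξ i) := by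
    rw [wf_apply, wf_apply]
    rfl
  have h2 : (fun i => B (ξ i)) = fun i => ∑ j, (Matrix.of fun i j => B (ξ j) i).transpose i j •
      (Pi.single j 1 : Cm (q + k)) := by
    funext i
    funext c
    simp [Finset.sum_apply, Pi.single_apply]
  rw [h1, h2, alt_mul, Matrix.det_transpose]

end

section one
variable {n q : ℕ} {W : Type} [NormedAddCommGroup W] [NormedSpace ℂ W]

/-- the multilinear map `w ↦ w 0` -/
def ev0 : MultilinearMap ℂ (fun _ : Fin 1 => W) W where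
  toFun w := w 0
  map_update_add' w i x y := by
    have : i = 0 := Subsingleton.elim _ _
    subst this
    simp
  map_update_smul' w i c x := by
    have : i = 0 := Subsingleton.elim _ _
    subst this
    simp

/-- the alternating map `O ∧ Θ` -/
def owf (L : Cm n →L[ℂ] Cm q) (Θ : Cm n →L[ℂ] W) : Cm n [⋀^Fin (q + 1)]→ₗ[ℂ] W :=
  wf (L : Cm n →ₗ[ℂ] Cm q) (Θ : Cm n →ₗ[ℂ] W) ev0

theorem owf_apply (L : Cm n →L[ℂ] Cm q) (Θ : Cm n →L[ℂ] W) (ξ : Fin (q + 1) → Cm n) :
    owf L Θ ξ = gf 1 L Θ (fun w => w 0) ξ := (gf_eq_wf L Θ ev0 ξ).symm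

theorem owf_ker (L : Cm n →L[ℂ] Cm q) (Θ : Cm n →L[ℂ] W) (ξ : Fin (q + 1) → Cm n)
    {i j : Fin (q + 1)} (hij : i ≠ j) (hi : L (ξ i) = 0) (hj : L (ξ j) = 0) : owf L Θ ξ = 0 := by
  rw [owf, wf_apply]
  refine Finset.sum_eq_zero fun σ _ => ?_
  have h1 : ∃ l : Fin q, L (ξ (σ (Fin.castAdd 1 l))) = 0 := by
    have h2 : σ.symm i ≠ σ.symm j := fun h => hij (σ.symm.injective h)
    rcases eq_or_ne (σ.symm i) (Fin.last q) with h3 | h3
    · obtain ⟨l, hl⟩ := Fin.exists_castSucc_eq.2 (show σ.symm j ≠ Fin.last q from fun h4 =>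
        h2 (h3.trans h4.symm))
      refine ⟨l, ?_⟩
      have h5 : Fin.castAdd 1 l = σ.symm j := hl
      rw [h5, Equiv.apply_symm_apply]
      exact hj
    · obtain ⟨l, hl⟩ := Fin.exists_castSucc_eq.2 h3
      refine ⟨l, ?_⟩
      have h5 : Fin.castAdd 1 l = σ.symm i := hl
      rw [h5, Equiv.apply_symm_apply]
      exact hi
  obtain ⟨l, hl⟩ := h1
  have h6 : ∏ j, (L : Cm n →ₗ[ℂ] Cm q) (ξ (σ (Fin.castAdd 1 j))) j = 0 := by
    refine Finset.prod_eq_zero (Finset.mem_univ l) ?_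
    show L (ξ (σ (Fin.castAdd 1 l))) l = 0
    rw [hl]
    rfl
  rw [h6, zero_smul, smul_zero]

theorem owf_sn (L : Cm n →L[ℂ] Cm q) (Θ : Cm n →L[ℂ] W) {ε : Fin q → Cm n}
    (hε : ∀ i, L (ε i) = Pi.single i 1) {η : Cm n} (hη : L η = 0) : owf L Θ (sn ε η) = Θ η := by
  rw [owf, wf_apply, Finset.sum_eq_single (1 : Equiv.Perm (Fin (q + 1)))]
  · have h1 : ∀ j : Fin q, L (sn ε η ((1 : Equiv.Perm (Fin (q + 1))) (Fin.castAdd 1 j))) j = 1 := by
      intro j
      have : (Fin.castAdd 1 j : Fin (q + 1)) = j.castSucc := rfl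
      rw [Equiv.Perm.one_apply, this, sn_castSucc, hε]
      simp
    have h2 : sn ε η ((1 : Equiv.Perm (Fin (q + 1))) (Fin.natAdd q (0 : Fin 1))) = η := by
      have : (Fin.natAdd q (0 : Fin 1) : Fin (q + 1)) = Fin.last q := rfl
      rw [Equiv.Perm.one_apply, this, sn_last]
    simp only [Equiv.Perm.sign_one, Units.val_one, one_smul]
    have h3 : ∏ j, (L : Cm n →ₗ[ℂ] Cm q) (sn ε η ((1 : Equiv.Perm (Fin (q + 1)))
        (Fin.castAdd 1 j))) j = 1 := Finset.prod_eq_one fun j _ => h1 j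
    rw [h3, one_smul]
    show Θ (sn ε η ((1 : Equiv.Perm (Fin (q + 1))) (Fin.natAdd q (0 : Fin 1)))) = Θ η
    rw [h2]
  · intro σ _ hσ
    have h1 : ∃ l : Fin q, σ l.castSucc ≠ l.castSucc := by
      by_contra hcon
      push Not at hcon
      apply hσ
      ext i
      refine Fin.lastCases ?_ (fun l => ?_) i
      · have h2 : σ (Fin.last q) = Fin.last q := by
          by_contra h3
          obtain ⟨l, hl⟩ := Fin.exists_castSucc_eq.2 h3
          have h4 := hcon l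
          rw [hl] at h4
          exact h3 (σ.injective h4)
        rw [h2, Equiv.Perm.one_apply]
      · rw [hcon l, Equiv.Perm.one_apply]
    obtain ⟨l, hl⟩ := h1
    have h6 : ∏ j, (L : Cm n →ₗ[ℂ] Cm q) (sn ε η (σ (Fin.castAdd 1 j))) j = 0 := by
      refine Finset.prod_eq_zero (Finset.mem_univ l) ?_
      show L (sn ε η (σ l.castSucc)) l = 0
      rcases eq_or_ne (σ l.castSucc) (Fin.last q) with h3 | h3
      · rw [h3, sn_last, hη]; rfl
      · obtain ⟨m, hm⟩ := Fin.exists_castSucc_eq.2 h3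
        rw [← hm, sn_castSucc, hε, Pi.single_apply, if_neg]
        intro h4
        rw [← hm, h4] at hl
        exact hl rfl
    rw [h6, zero_smul, smul_zero]
  · intro h
    exact absurd (Finset.mem_univ _) h

/-- **Criterion**: `S = O ∧ Θ`. -/
theorem isW_of {L : Cm n →L[ℂ] Cm q} {S : Cm n [⋀^Fin (q + 1)]→L[ℂ] W} {Θ : Cm n →L[ℂ] W}
    {ε : Fin q → Cm n} (hε : ∀ i, L (ε i) = Pi.single i 1)
    (hrel : ∀ (ξ : Fin (q + 1) → Cm n) (i j : Fin (q + 1)), i ≠ j → L (ξ i) = 0 → L (ξ j) = 0 →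
      S ξ = 0) (h : ∀ η, L η = 0 → S (sn ε η) = Θ η) : IsW L S Θ := by
  intro ξ
  rw [← owf_apply]
  set D : Cm n [⋀^Fin (q + 1)]→ₗ[ℂ] W := S.toAlternatingMap - owf L Θ with hD
  have hD0 : ∀ ξ, D ξ = S ξ - owf L Θ ξ := fun ξ => rfl
  have hDk : ∀ (ξ : Fin (q + 1) → Cm n) (i j : Fin (q + 1)), i ≠ j → L (ξ i) = 0 → L (ξ j) = 0 →
      D ξ = 0 := fun ξ i j hij hi hj => by
    rw [hD0, hrel ξ i j hij hi hj, owf_ker L Θ ξ hij hi hj, sub_zero]
  have hDs : ∀ η, L η = 0 → D (sn ε η) = 0 := fun η hη => by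
    rw [hD0, h η hη, owf_sn L Θ hε hη, sub_self]
  have hmain : D ξ = 0 := by
    set E : Cm n → Cm n := fun v => ∑ j, L v j • ε j with hE
    have hLE : ∀ v, L (v - E v) = 0 := by
      intro v
      rw [map_sub, hE]
      simp only [map_sum, map_smul, hε]
      rw [sub_eq_zero]
      funext j
      simp [Finset.sum_apply, Pi.single_apply]
    have h1 : ξ = (fun i => E (ξ i)) + fun i => (ξ i - E (ξ i)) := by
      funext i
      simp
    have h2 := (D : MultilinearMap ℂ (fun _ : Fin (q + 1) => Cm n) W).map_add_univ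
      (fun i => E (ξ i)) fun i => (ξ i - E (ξ i))
    rw [← h1] at h2
    have h3 : D ξ = (D : MultilinearMap ℂ (fun _ : Fin (q + 1) => Cm n) W) ξ := rfl
    rw [h3, h2]
    refine Finset.sum_eq_zero fun s _ => ?_
    show D (s.piecewise (fun i => E (ξ i)) fun i => (ξ i - E (ξ i))) = 0
    by_cases hs2 : ∃ i j, i ≠ j ∧ i ∉ s ∧ j ∉ s
    · obtain ⟨i, j, hij, hi, hj⟩ := hs2
      refine hDk _ i j hij ?_ ?_
      · rw [Finset.piecewise_eq_of_notMem _ _ _ hi]; exact hLE _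
      · rw [Finset.piecewise_eq_of_notMem _ _ _ hj]; exact hLE _
    · push Not at hs2
      -- all vectors are combinations of `sn ε η`
      obtain ⟨η, hη, A, hA⟩ : ∃ (η : Cm n) (_ : L η = 0) (A : Matrix (Fin (q + 1)) (Fin (q + 1)) ℂ),
          s.piecewise (fun i => E (ξ i)) (fun i => (ξ i - E (ξ i))) =
            fun i => ∑ j, A i j • sn ε η j := by
        by_cases hs : ∃ i, i ∉ s
        · obtain ⟨i₀, hi₀⟩ := hs
          refine ⟨ξ i₀ - E (ξ i₀), hLE _, Matrix.of fun i j => Fin.lastCases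
            (if i = i₀ then (1 : ℂ) else 0) (fun l => if i = i₀ then 0 else L (ξ i) l) j, ?_⟩
          funext i
          rw [Fin.sum_univ_castSucc]
          simp only [Matrix.of_apply, Fin.lastCases_last, Fin.lastCases_castSucc, sn_castSucc,
            sn_last]
          by_cases hi : i = i₀
          · subst hi
            rw [Finset.piecewise_eq_of_notMem _ _ _ hi₀]
            simp
          · have his : i ∈ s := by
              by_contra h4
              exact hi₀ (hs2 i i₀ hi h4)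
            rw [Finset.piecewise_eq_of_mem _ _ _ his]
            simp [hi, hE]
        · push Not at hs
          refine ⟨0, map_zero L, Matrix.of fun i j => Fin.lastCases
            (0 : ℂ) (fun l => L (ξ i) l) j, ?_⟩
          funext i
          rw [Fin.sum_univ_castSucc]
          simp only [Matrix.of_apply, Fin.lastCases_last, Fin.lastCases_castSucc, sn_castSucc,
            sn_last]
          rw [Finset.piecewise_eq_of_mem _ _ _ (hs i)]
          simp [hE]
      rw [hA, alt_mul, hDs η hη, smul_zero]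
  rw [hD0] at hmain
  exact sub_eq_zero.1 hmain

/-- the value of `Θ` on the kernel of `L` -/
theorem isW_sn {L : Cm n →L[ℂ] Cm q} {S : Cm n [⋀^Fin (q + 1)]→L[ℂ] W} {Θ : Cm n →L[ℂ] W}
    (h : IsW L S Θ) {ε : Fin q → Cm n} (hε : ∀ i, L (ε i) = Pi.single i 1) {η : Cm n}
    (hη : L η = 0) : S (sn ε η) = Θ η := by
  rw [h, ← owf_apply, owf_sn L Θ hε hη]

end one

end Vale.Agent.P284.H625
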