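import Vale.Agent.P284.H625.NS.Spec2
import Vale.Agent.P284.H573.NS.VS
import Vale.Agent.P284.H573.HForm

/-!
# P284 (helper625), module NS: local summary
-/

open scoped Topology
open Filter

noncomputable section

namespace Vale.Agent.P284.H625

open Vale.Agent.P272.K Vale.Agent.P284.H573

section
variable {q r : ℕ} {W H₁ H₂ : Type} [NormedAddCommGroup W] [InnerProductSpace ℂ W]
  [CompleteSpace W]
  [NormedAddCommGroup H₁] [InnerProductSpace ℂ H₁] [CompleteSpace H₁] [NormedAddCommGroup H₂]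
  [InnerProductSpace ℂ H₂] [CompleteSpace H₂]

/-- the natural functions satisfy the Plücker closure -/
theorem plu_natFun {D : Dat q (q + r) H₁ H₂} {F : Cm (q + r) → W} {x₀ : Cm (q + r)}
    (hA : Adapted D F x₀) : Plu q r {g | NatFun D x₀ g} :=
  fun s k e g hg α => (cloStmt q r W H₁ H₂ D F x₀ hA).2.2.2.1 s k e g hg α

/-- **Local summary of NS**: at a point of maximal rank `s`. -/
theorem nsLoc (hC : HCStmt) {D : Dat q (q + r) H₁ H₂} {F : Cm (q + r) → W} {x₀ : Cm (q + r)}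
    (hA : Adapted D F x₀) {m : ℕ} (hm : 1 ≤ m) {H : Type} [NormedAddCommGroup H]
    [InnerProductSpace ℂ H] [CompleteSpace H] (Γ : NatOp q (q + r) H₁ H₂ m H) (hΓ : Nrm Γ)
    {s : ℕ} (δ : Fin s → H)
    (surj : ∀ y : Fin s → ℂ, ∃ ξ : Cm (q + r), ∀ i,
      fderiv ℂ (fun x => inner ℂ (δ i) (Γ.op D x)) x₀ ξ = y i)
    (max : ∀ g, NatFun D x₀ g → ∀ᶠ x in 𝓝 x₀, ∀ ξ : Cm (q + r),
      (∀ i, fderiv ℂ (fun x => inner ℂ (δ i) (Γ.op D x)) x ξ = 0) → fderiv ℂ g x ξ = 0) :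
    (s = q + r → ImmAt (Γ.op D) x₀) ∧
    (s < q + r → (∃ ζ : Cm (q + r), ζ ≠ 0 ∧ tq ζ = 0 ∧
        ∀ᶠ x in 𝓝 x₀, tq x = tq x₀ → fderiv ℂ F x ζ = fderiv ℂ F x₀ ζ) ∨
      IsoPkgC q r (q + r - s) s W x₀ {g | NatFun D x₀ g} F
        (fun i x => inner ℂ (δ i) (Γ.op D x))) := by
  obtain ⟨c1, c2, c3, c4, c5⟩ := cloStmt q r W H₁ H₂ D F x₀ hA
  have hfi : ∀ i, NatFun D x₀ (fun x => inner ℂ (δ i) (Γ.op D x)) := fun i =>
    ⟨m, hm, H, inferInstance, inferInstance, inferInstance, Γ, δ i, hΓ,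
      Eventually.of_forall fun x => rfl⟩
  refine ⟨fun hs => ?_, fun hs => ?_⟩
  · obtain ⟨δ₀, hδ₀⟩ := hΓ.one hA.an hA.one
    have hd := (Γ.anAt hA.an).differentiableAt
    refine ⟨fun h0 => ?_, fun η c hη => ?_⟩
    · have := hδ₀.self_of_nhds
      rw [h0, inner_zero_right] at this
      exact zero_ne_one this
    · have e1 : inner ℂ δ₀ (fderiv ℂ (Γ.op D) x₀ η) = 0 := by
        rw [← fderiv_inner_const δ₀ hd]
        have : (fun y => inner ℂ δ₀ (Γ.op D y)) =ᶠ[𝓝 x₀] fun _ => (1 : ℂ) := hδ₀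
        rw [this.fderiv_eq]
        simp
      have hc : c = 0 := by
        rw [hη, inner_smul_right, hδ₀.self_of_nhds, mul_one] at e1
        exact e1
      have e2 : ∀ i, fderiv ℂ (fun x => inner ℂ (δ i) (Γ.op D x)) x₀ η = 0 := by
        intro i
        rw [fderiv_inner_const (δ i) hd, hη, hc, zero_smul, inner_zero_right]
      -- the differentials are jointly injective, by dimension
      set L : Cm (q + r) →ₗ[ℂ] (Fin s → ℂ) := LinearMap.pi fun i =>
        (fderiv ℂ (fun x => inner ℂ (δ i) (Γ.op D x)) x₀ : Cm (q + r) →ₗ[ℂ] ℂ) with hL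
      have hsurj : Function.Surjective L := by
        intro y
        obtain ⟨ξ, hξ⟩ := surj y
        exact ⟨ξ, funext hξ⟩
      have hinj : Function.Injective L := by
        rw [LinearMap.injective_iff_surjective_of_finrank_eq_finrank]
        · exact hsurj
        · simp [hs]
      apply hinj
      rw [map_zero]
      exact funext e2
  · by_cases h : ∃ ζ : Cm (q + r), ζ ≠ 0 ∧ tq ζ = 0 ∧
      ∀ i, fderiv ℂ (fun x => inner ℂ (δ i) (Γ.op D x)) x₀ ζ = 0
    · left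
      obtain ⟨ζ, h1, h2, h3⟩ := h
      exact ⟨ζ, h1, h2, vStmt q r W x₀ {g | NatFun D x₀ g} F c1 c2 hA.F_an c3 ζ h2
        fun g hg => (max g hg).self_of_nhds ζ h3⟩
    · right
      push Not at h
      have e : Fin s ⊕ Fin (q + r - s) ≃ Fin (q + r) :=
        finSumFinEquiv.trans (finCongr (by omega))
      refine hC q r (q + r - s) s e (by omega) W x₀ {g | NatFun D x₀ g} F c1 c2 hA.F_an c3
        _ hfi surj (fun g hg => max g hg) (fun ξ h4 h5 => ?_) (plu_natFun hA)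
      by_contra h6
      obtain ⟨i, hi⟩ := h ξ h6 h5
      exact hi (h4 i)

end

end Vale.Agent.P284.H625
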