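import Vale.Agent.P284.H625.NS.Spec

/-!
# P284 (helper625), module NS: operations on natural operators
-/

open scoped Topology
open Filter

noncomputable section

set_option linter.unusedSectionVars false

namespace Vale.Agent.P284.H625

open Vale.Agent.P272.K

section
variable {q R : ℕ} {H₁ H₂ : Type} [NormedAddCommGroup H₁] [InnerProductSpace ℂ H₁]
  [CompleteSpace H₁] [NormedAddCommGroup H₂] [InnerProductSpace ℂ H₂] [CompleteSpace H₂]

/-! ### basic facts -/

theorem vec_eq_sum {n : ℕ} (v : Cm n) : v = ∑ j, v j • (Pi.single j (1 : ℂ) : Cm n) := by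
  ext i
  simp [Finset.sum_apply, Pi.single_apply]

theorem clm_apply_sum {n : ℕ} {V : Type} [NormedAddCommGroup V] [NormedSpace ℂ V]
    (A : Cm n →L[ℂ] V) (v : Cm n) : A v = ∑ j, v j • A (Pi.single j 1) := by
  conv_lhs => rw [vec_eq_sum v]
  simp [map_sum]

/-- chain rule in coordinates -/
theorem fderiv_comp_single {n : ℕ} {V : Type} [NormedAddCommGroup V] [NormedSpace ℂ V]
    {f : Cm n → V} {h : Cm n → Cm n} {x : Cm n} (hf : DifferentiableAt ℂ f (h x))
    (hh : DifferentiableAt ℂ h x) (i : Fin n) :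
    fderiv ℂ (fun y => f (h y)) x (Pi.single i 1) =
      ∑ j, jac h x j i • fderiv ℂ f (h x) (Pi.single j 1) := by
  have : fderiv ℂ (fun y => f (h y)) x = (fderiv ℂ f (h x)).comp (fderiv ℂ h x) :=
    fderiv_fun_comp x hf hh
  rw [this, ContinuousLinearMap.comp_apply, clm_apply_sum (fderiv ℂ f (h x))]
  rfl

theorem Dat.An.eventually {D : Dat q R H₁ H₂} {x : Cm R} (h : D.An x) : ∀ᶠ y in 𝓝 x, D.An y := by
  filter_upwards [h.1.eventually_analyticAt, h.2.1.eventually_analyticAt,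
    h.2.2.eventually_analyticAt] with y h1 h2 h3 using ⟨h1, h2, h3⟩

theorem JAn.eventually {P : Type} [NormedAddCommGroup P] [NormedSpace ℂ P]
    {D : P → Dat q R H₁ H₂} {p : P} {x : Cm R} (h : JAn D p x) :
    ∀ᶠ y in 𝓝 (p, x), JAn D y.1 y.2 := by
  filter_upwards [h.1.eventually_analyticAt, h.2.1.eventually_analyticAt,
    h.2.2.eventually_analyticAt] with y h1 h2 h3 using ⟨h1, h2, h3⟩

theorem Dat.An.jan {P : Type} [NormedAddCommGroup P] [NormedSpace ℂ P] {D : Dat q R H₁ H₂}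
    {x : Cm R} (h : D.An x) (p : P) : JAn (fun _ : P => D) p x :=
  ⟨h.1.comp_of_eq analyticAt_snd rfl, h.2.1.comp_of_eq analyticAt_snd rfl,
    h.2.2.comp_of_eq analyticAt_snd rfl⟩

theorem Dat.Eqv.eventually {D D' : Dat q R H₁ H₂} {x : Cm R} (h : D.Eqv D' x) :
    ∀ᶠ y in 𝓝 x, D.Eqv D' y := by
  filter_upwards [h.1.eventually_nhds, h.2.1.eventually_nhds, h.2.2.eventually_nhds] with y a b c
    using ⟨a, b, c⟩

theorem Dat.Eqv.symm {D D' : Dat q R H₁ H₂} {x : Cm R} (h : D.Eqv D' x) : D'.Eqv D x :=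
  ⟨h.1.symm, h.2.1.symm, h.2.2.symm⟩

/-- analyticity in the slice variable only -/
theorem an_of_jan {V : Type} [NormedAddCommGroup V] [NormedSpace ℂ V] {f : Cm R → V} {x : Cm R}
    (h : AnalyticAt ℂ (fun y : Cm 0 × Cm R => f y.2) ((0 : Cm 0), x)) : AnalyticAt ℂ f x := by
  have h2 : AnalyticAt ℂ (fun z : Cm R => ((0 : Cm 0), z)) x :=
    analyticAt_const.prod analyticAt_id
  exact h.comp_of_eq h2 rfl

theorem NatOp.anAt {m : ℕ} {H : Type} [NormedAddCommGroup H] [InnerProductSpace ℂ H]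
    (Γ : NatOp q R H₁ H₂ m H) {D : Dat q R H₁ H₂} {x : Cm R} (h : D.An x) :
    AnalyticAt ℂ (Γ.op D) x :=
  an_of_jan (Γ.an (Cm 0) (fun _ => D) 0 x (h.jan 0))

theorem NatForm.anAt {m : ℕ} {K : Type} [NormedAddCommGroup K] [InnerProductSpace ℂ K]
    (β : NatForm q R H₁ H₂ m K) {D : Dat q R H₁ H₂} {x : Cm R} (h : D.An x) :
    AnalyticAt ℂ (β.op D) x :=
  an_of_jan (β.an (Cm 0) (fun _ => D) 0 x (h.jan 0))

/-- the pullback formula holds near `x` -/
theorem NatOp.pull_eventually {m : ℕ} {H : Type} [NormedAddCommGroup H] [InnerProductSpace ℂ H]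
    (Γ : NatOp q R H₁ H₂ m H) {D : Dat q R H₁ H₂} {h : Cm R → Cm R} {x : Cm R}
    (hh : AnalyticAt ℂ h x) (hD : D.An (h x)) :
    ∀ᶠ y in 𝓝 x, Γ.op (D.pull h) y = (jac h y).det ^ m • Γ.op D (h y) := by
  filter_upwards [hh.eventually_analyticAt, hh.continuousAt.eventually hD.eventually]
    with y h1 h2 using Γ.pull D h y h1 h2

theorem jac_an {h : Cm R → Cm R} {x : Cm R} (hh : AnalyticAt ℂ h x) (i j : Fin R) :
    AnalyticAt ℂ (fun y => jac h y i j) x := by
  have h1 : AnalyticAt ℂ (fun y => fderiv ℂ h y (Pi.single j 1)) x := by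
    have := hh.fderiv
    exact (ContinuousLinearMap.apply ℂ (Cm R) (Pi.single j (1 : ℂ) : Cm R)).analyticAt _
      |>.comp_of_eq this rfl
  exact (ContinuousLinearMap.proj (R := ℂ) (φ := fun _ : Fin R => ℂ) i).analyticAt _
    |>.comp_of_eq h1 rfl

theorem jac_det_an {h : Cm R → Cm R} {x : Cm R} (hh : AnalyticAt ℂ h x) :
    AnalyticAt ℂ (fun y => (jac h y).det) x := by
  simp only [Matrix.det_apply]
  refine Finset.analyticAt_fun_sum _ fun σ _ => ?_
  have : AnalyticAt ℂ (fun y => ∏ i, jac h y (σ i) i) x :=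
    Finset.analyticAt_fun_prod _ fun i _ => jac_an hh _ _
  exact (this.const_smul (c := ((Equiv.Perm.sign σ : ℤ) : ℂ))).congr
    (Eventually.of_forall fun y => by
      simp [Units.smul_def])

end

end Vale.Agent.P284.H625
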