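import Vale.Agent.P284.H625.NS.Ops

/-!
# P284 (helper625), module NS: tensor products, direct sums, `v`
-/

open scoped Topology
open Filter

noncomputable section

set_option linter.unusedSectionVars false

namespace Vale.Agent.P284.H625

open Vale.Agent.P272.K

/-- A Hilbert space tensor product of `H` and `K`. -/
structure Tens (H K T : Type) [NormedAddCommGroup H] [InnerProductSpace ℂ H]
    [NormedAddCommGroup K] [InnerProductSpace ℂ K] [NormedAddCommGroup T]
    [InnerProductSpace ℂ T] where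
  B : H →L[ℂ] K →L[ℂ] T
  inner_B : ∀ a b c d, inner ℂ (B a b) (B c d) = inner ℂ a c * inner ℂ b d
  map : ∀ (U : H →ₗᵢ[ℂ] H) (V : K →ₗᵢ[ℂ] K), ∃ L : T →ₗᵢ[ℂ] T, ∀ a b, L (B a b) = B (U a) (V b)

theorem ext2 {H K : Type} {x y : WithLp 2 (H × K)} (h : x.fst = y.fst) (h' : x.snd = y.snd) :
    x = y :=
  (WithLp.equiv 2 (H × K)).injective (Prod.ext h h')

theorem fst_sum {ι H K : Type} [NormedAddCommGroup H] [NormedAddCommGroup K]
    (s : Finset ι) (f : ι → WithLp 2 (H × K)) : (∑ i ∈ s, f i).fst = ∑ i ∈ s, (f i).fst := by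
  classical
  induction s using Finset.induction_on with
  | empty => rfl
  | insert a s ha ih => rw [Finset.sum_insert ha, Finset.sum_insert ha, ← ih]; rfl

theorem snd_sum {ι H K : Type} [NormedAddCommGroup H] [NormedAddCommGroup K]
    (s : Finset ι) (f : ι → WithLp 2 (H × K)) : (∑ i ∈ s, f i).snd = ∑ i ∈ s, (f i).snd := by
  classical
  induction s using Finset.induction_on with
  | empty => rfl
  | insert a s ha ih => rw [Finset.sum_insert ha, Finset.sum_insert ha, ← ih]; rfl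

/-- The direct sum of two linear isometries. -/
def prodIso {H K : Type} [NormedAddCommGroup H] [InnerProductSpace ℂ H]
    [NormedAddCommGroup K] [InnerProductSpace ℂ K] (U : H →ₗᵢ[ℂ] H) (V : K →ₗᵢ[ℂ] K) :
    WithLp 2 (H × K) →ₗᵢ[ℂ] WithLp 2 (H × K) where
  toFun x := WithLp.toLp 2 (U x.fst, V x.snd)
  map_add' x y := by
    apply ext2 <;> simp
  map_smul' c x := by
    apply ext2 <;> simp
  norm_map' x := by
    rw [WithLp.prod_norm_eq_of_L2, WithLp.prod_norm_eq_of_L2]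
    simp

section
variable {q R : ℕ} {H₁ H₂ : Type} [NormedAddCommGroup H₁] [InnerProductSpace ℂ H₁]
  [CompleteSpace H₁] [NormedAddCommGroup H₂] [InnerProductSpace ℂ H₂] [CompleteSpace H₂]

/-- The operator `v`. -/
def opV : NatOp q R H₁ H₂ 1 H₁ where
  op D := D.v
  loc D D' x h := h.2.1.eq_of_nhds
  an P _ _ D p x h := h.2.1
  pull D h x _ _ := by simp [Dat.pull]
  iso U₁ U₂ := ⟨U₁, fun c D x _ => rfl⟩

/-- Tensor product of operators. -/
def opTens {m m' : ℕ} {H K T : Type} [NormedAddCommGroup H] [InnerProductSpace ℂ H]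
    [NormedAddCommGroup K] [InnerProductSpace ℂ K] [NormedAddCommGroup T]
    [InnerProductSpace ℂ T] (S : Tens H K T) (Γ : NatOp q R H₁ H₂ m H)
    (Γ' : NatOp q R H₁ H₂ m' K) : NatOp q R H₁ H₂ (m + m') T where
  op D x := S.B (Γ.op D x) (Γ'.op D x)
  loc D D' x h := by rw [Γ.loc D D' x h, Γ'.loc D D' x h]
  an P _ _ D p x h := by
    have h1 := Γ.an P D p x h
    have h2 := Γ'.an P D p x h
    have h3 : AnalyticAt ℂ (fun z : H × K => S.B z.1 z.2)
        (Γ.op (D p) x, Γ'.op (D p) x) := S.B.analyticAt_bilinear _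
    exact h3.comp_of_eq (h1.prod h2) rfl
  pull D h x hh hD := by
    rw [Γ.pull D h x hh hD, Γ'.pull D h x hh hD]
    simp only [map_smul, smul_apply, smul_smul, pow_add, mul_comm]
  iso U₁ U₂ := by
    obtain ⟨U, hU⟩ := Γ.iso U₁ U₂
    obtain ⟨V, hV⟩ := Γ'.iso U₁ U₂
    obtain ⟨L, hL⟩ := S.map U V
    exact ⟨L, fun c D x hD => by rw [hU c D x hD, hV c D x hD, hL]⟩

/-- Direct sum of operators of the same weight. -/
def opSum {m : ℕ} {H K : Type} [NormedAddCommGroup H] [InnerProductSpace ℂ H]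
    [NormedAddCommGroup K] [InnerProductSpace ℂ K] (Γ : NatOp q R H₁ H₂ m H)
    (Γ' : NatOp q R H₁ H₂ m K) : NatOp q R H₁ H₂ m (WithLp 2 (H × K)) where
  op D x := WithLp.toLp 2 (Γ.op D x, Γ'.op D x)
  loc D D' x h := by rw [Γ.loc D D' x h, Γ'.loc D D' x h]
  an P _ _ D p x h := by
    have h1 := Γ.an P D p x h
    have h2 := Γ'.an P D p x h
    exact ((WithLp.prodContinuousLinearEquiv 2 ℂ H K).symm.toContinuousLinearMap.analyticAt
      _).comp_of_eq (h1.prod h2) rfl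
  pull D h x hh hD := by
    rw [Γ.pull D h x hh hD, Γ'.pull D h x hh hD]
    apply ext2 <;> simp
  iso U₁ U₂ := by
    obtain ⟨U, hU⟩ := Γ.iso U₁ U₂
    obtain ⟨V, hV⟩ := Γ'.iso U₁ U₂
    exact ⟨prodIso U V, fun c D x hD => by rw [hU c D x hD, hV c D x hD]; rfl⟩

/-- Direct sum of natural forms of the same weight. -/
def formSum {m : ℕ} {H K : Type} [NormedAddCommGroup H] [InnerProductSpace ℂ H]
    [NormedAddCommGroup K] [InnerProductSpace ℂ K] (Γ : NatForm q R H₁ H₂ m H)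
    (Γ' : NatForm q R H₁ H₂ m K) : NatForm q R H₁ H₂ m (WithLp 2 (H × K)) where
  op D x i := WithLp.toLp 2 (Γ.op D x i, Γ'.op D x i)
  loc D D' x h := by rw [Γ.loc D D' x h, Γ'.loc D D' x h]
  an P _ _ D p x h := by
    have h1 := Γ.an P D p x h
    have h2 := Γ'.an P D p x h
    rw [analyticAt_pi_iff] at h1 h2 ⊢
    intro i
    exact ((WithLp.prodContinuousLinearEquiv 2 ℂ H K).symm.toContinuousLinearMap.analyticAt
      _).comp_of_eq ((h1 i).prod (h2 i)) rfl
  pull D h x hh hD i := by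
    rw [Γ.pull D h x hh hD i, Γ'.pull D h x hh hD i]
    apply ext2 <;> simp [fst_sum, snd_sum]
  iso U₁ U₂ := by
    obtain ⟨U, hU⟩ := Γ.iso U₁ U₂
    obtain ⟨V, hV⟩ := Γ'.iso U₁ U₂
    exact ⟨prodIso U V, fun c D x hD i => by rw [hU c D x hD i, hV c D x hD i]; rfl⟩

theorem nrm_opV : Nrm (opV : NatOp q R H₁ H₂ 1 H₁) := fun ε => ⟨ε, fun D x _ => by simp [opV]⟩

theorem nrm_opTens {m m' : ℕ} {H K T : Type} [NormedAddCommGroup H] [InnerProductSpace ℂ H]
    [NormedAddCommGroup K] [InnerProductSpace ℂ K] [NormedAddCommGroup T]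
    [InnerProductSpace ℂ T] (S : Tens H K T) {Γ : NatOp q R H₁ H₂ m H}
    {Γ' : NatOp q R H₁ H₂ m' K} (h : Nrm Γ) (h' : Nrm Γ') : Nrm (opTens S Γ Γ') := by
  intro ε
  obtain ⟨δ, hδ⟩ := h ε
  obtain ⟨δ', hδ'⟩ := h' ε
  exact ⟨S.B δ δ', fun D x hD => by
    simp only [opTens, S.inner_B, hδ D x hD, hδ' D x hD, pow_add]⟩

theorem nrm_opSum_left {m : ℕ} {H K : Type} [NormedAddCommGroup H] [InnerProductSpace ℂ H]
    [NormedAddCommGroup K] [InnerProductSpace ℂ K] {Γ : NatOp q R H₁ H₂ m H}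
    (Γ' : NatOp q R H₁ H₂ m K) (h : Nrm Γ) : Nrm (opSum Γ Γ') := by
  intro ε
  obtain ⟨δ, hδ⟩ := h ε
  exact ⟨WithLp.toLp 2 (δ, 0), fun D x hD => by simp [opSum, hδ D x hD]⟩

end

end Vale.Agent.P284.H625
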