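import Vale.Agent.P284.H625.NS.Ops2
import Mathlib.LinearAlgebra.Determinant

/-!
# P284 (helper625), module NS: the 1-forms `Γ ∧ dΓ`, `Γ ⊗ dt`, contraction with `w`
-/

open scoped Topology
open Filter

noncomputable section

set_option linter.unusedSectionVars false

namespace Vale.Agent.P284.H625

open Vale.Agent.P272.K

section
variable {q R : ℕ} {H₁ H₂ : Type} [NormedAddCommGroup H₁] [InnerProductSpace ℂ H₁]
  [CompleteSpace H₁] [NormedAddCommGroup H₂] [InnerProductSpace ℂ H₂] [CompleteSpace H₂]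

/-- partial derivative of a jointly analytic function -/
theorem partial_an {P V : Type} [NormedAddCommGroup P] [NormedSpace ℂ P] [NormedAddCommGroup V]
    [NormedSpace ℂ V] [CompleteSpace V] {f : P → Cm R → V} {p : P} {x : Cm R}
    (h : AnalyticAt ℂ (fun y : P × Cm R => f y.1 y.2) (p, x)) (v : Cm R) :
    AnalyticAt ℂ (fun y : P × Cm R => fderiv ℂ (f y.1) y.2 v) (p, x) := by
  have h1 : AnalyticAt ℂ (fun y : P × Cm R =>
      fderiv ℂ (fun y : P × Cm R => f y.1 y.2) y ((0, v) : P × Cm R)) (p, x) :=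
    (ContinuousLinearMap.apply ℂ V ((0, v) : P × Cm R)).analyticAt _ |>.comp_of_eq h.fderiv rfl
  refine h1.congr ?_
  filter_upwards [h.eventually_analyticAt] with y hy
  have h2 : HasFDerivAt (fun y : P × Cm R => f y.1 y.2)
      (fderiv ℂ (fun y : P × Cm R => f y.1 y.2) (y.1, y.2)) (y.1, y.2) :=
    hy.differentiableAt.hasFDerivAt
  have h3 : HasFDerivAt (fun z : Cm R => ((y.1, z) : P × Cm R))
      (ContinuousLinearMap.inr ℂ P (Cm R)) y.2 := hasFDerivAt_prodMk_right y.1 y.2
  have h4 : HasFDerivAt (f y.1)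
      ((fderiv ℂ (fun y : P × Cm R => f y.1 y.2) (y.1, y.2)).comp
        (ContinuousLinearMap.inr ℂ P (Cm R))) y.2 := h2.comp y.2 h3
  rw [h4.fderiv]
  simp

theorem det_pow_an {h : Cm R → Cm R} {x : Cm R} (hh : AnalyticAt ℂ h x) (m : ℕ) :
    DifferentiableAt ℂ (fun y => (jac h y).det ^ m) x :=
  ((jac_det_an hh).pow m).differentiableAt

/-- derivative of the pulled back section -/
theorem fderiv_pull {m : ℕ} {H : Type} [NormedAddCommGroup H] [InnerProductSpace ℂ H]
    (Γ : NatOp q R H₁ H₂ m H) {D : Dat q R H₁ H₂} {h : Cm R → Cm R} {x : Cm R}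
    (hh : AnalyticAt ℂ h x) (hD : D.An (h x)) (i : Fin R) :
    ∃ c : ℂ, fderiv ℂ (Γ.op (D.pull h)) x (Pi.single i 1) =
      c • Γ.op D (h x) + (jac h x).det ^ m •
        ∑ j, jac h x j i • fderiv ℂ (Γ.op D) (h x) (Pi.single j 1) := by
  have h1 := Γ.pull_eventually hh hD
  have h2 : DifferentiableAt ℂ (fun y => Γ.op D (h y)) x :=
    ((Γ.anAt hD).differentiableAt).comp x hh.differentiableAt
  refine ⟨fderiv ℂ (fun y => (jac h y).det ^ m) x (Pi.single i 1), ?_⟩
  rw [Filter.EventuallyEq.fderiv_eq h1, fderiv_fun_smul (det_pow_an hh m) h2]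
  simp only [add_apply, smul_apply,
    ContinuousLinearMap.smulRight_apply]
  rw [fderiv_comp_single (Γ.anAt hD).differentiableAt hh.differentiableAt i, add_comm]

/-- The 1-form `Γ ∧ dΓ`. -/
def formD {m : ℕ} {H T : Type} [NormedAddCommGroup H] [InnerProductSpace ℂ H] [CompleteSpace H]
    [NormedAddCommGroup T] [InnerProductSpace ℂ T] (S : Tens H H T)
    (Γ : NatOp q R H₁ H₂ m H) : NatForm q R H₁ H₂ (m + m) T where
  op D x i := S.B (Γ.op D x) (fderiv ℂ (Γ.op D) x (Pi.single i 1)) -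
    S.B (fderiv ℂ (Γ.op D) x (Pi.single i 1)) (Γ.op D x)
  loc D D' x h := by
    have h1 : Γ.op D =ᶠ[𝓝 x] Γ.op D' := by
      filter_upwards [h.eventually] with y hy using Γ.loc D D' y hy
    rw [h1.fderiv_eq, h1.eq_of_nhds]
  an P _ _ D p x h := by
    have h1 := Γ.an P D p x h
    rw [analyticAt_pi_iff]
    intro i
    have h2 := partial_an (f := fun p => Γ.op (D p)) h1 (Pi.single i 1)
    have h3 : AnalyticAt ℂ (fun z : H × H => S.B z.1 z.2)
        (Γ.op (D p) x, fderiv ℂ (Γ.op (D p)) x (Pi.single i 1)) := S.B.analyticAt_bilinear _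
    have h4 : AnalyticAt ℂ (fun z : H × H => S.B z.1 z.2)
        (fderiv ℂ (Γ.op (D p)) x (Pi.single i 1), Γ.op (D p) x) := S.B.analyticAt_bilinear _
    exact (h3.comp_of_eq (h1.prod h2) rfl).sub (h4.comp_of_eq (h2.prod h1) rfl)
  pull D h x hh hD i := by
    obtain ⟨c, hc⟩ := fderiv_pull Γ hh hD i
    rw [Γ.pull D h x hh hD, hc]
    simp only [map_add, map_smul, map_sum, add_apply, smul_apply, sum_apply, smul_add, smul_sub,
      Finset.smul_sum, smul_smul, Finset.sum_sub_distrib, pow_add]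
    rw [mul_comm c]
    have e1 : ∀ j, (jac h x).det ^ m * ((jac h x).det ^ m * jac h x j i) =
      (jac h x).det ^ m * (jac h x).det ^ m * jac h x j i := fun j => by ring
    have e2 : ∀ j, (jac h x).det ^ m * jac h x j i * (jac h x).det ^ m =
      (jac h x).det ^ m * (jac h x).det ^ m * jac h x j i := fun j => by ring
    simp only [e1, e2, mul_comm]
    abel
  iso U₁ U₂ := by
    obtain ⟨U, hU⟩ := Γ.iso U₁ U₂
    obtain ⟨L, hL⟩ := S.map U U
    refine ⟨L, fun c D x hD i => ?_⟩
    have h1 : Γ.op (D.act U₁ U₂ c) =ᶠ[𝓝 x] fun y => U (Γ.op D y) := by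
      filter_upwards [hD.eventually] with y hy using hU c D y hy
    have h2 : fderiv ℂ (fun y => U (Γ.op D y)) x = U.toContinuousLinearMap.comp
        (fderiv ℂ (Γ.op D) x) :=
      (U.toContinuousLinearMap.hasFDerivAt.comp x (Γ.anAt hD).differentiableAt.hasFDerivAt).fderiv
    rw [h1.fderiv_eq, h2, hU c D x hD]
    simp only [ContinuousLinearMap.comp_apply, LinearIsometry.coe_toContinuousLinearMap, map_sub,
      hL]

/-- The isometry `id` on `ℂ^q`. -/
abbrev Eq' (q : ℕ) : Type := EuclideanSpace ℂ (Fin q)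

/-- The 1-form `Γ ⊗ dt`. -/
def formT {m : ℕ} {H T : Type} [NormedAddCommGroup H] [InnerProductSpace ℂ H]
    [NormedAddCommGroup T] [InnerProductSpace ℂ T] (S : Tens H (Eq' q) T)
    (Γ : NatOp q R H₁ H₂ m H) : NatForm q R H₁ H₂ m T where
  op D x i := S.B (Γ.op D x) (WithLp.toLp 2 (fderiv ℂ D.t x (Pi.single i 1)))
  loc D D' x h := by
    rw [h.1.fderiv_eq, Γ.loc D D' x h]
  an P _ _ D p x h := by
    have h1 := Γ.an P D p x h
    rw [analyticAt_pi_iff]
    intro i
    have h2 := partial_an (f := fun p => (D p).t) h.1 (Pi.single i 1)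
    have h5 : AnalyticAt ℂ (fun y : P × Cm R => (WithLp.toLp 2
        (fderiv ℂ (D y.1).t y.2 (Pi.single i 1)) : Eq' q)) (p, x) :=
      ((PiLp.continuousLinearEquiv 2 ℂ (fun _ : Fin q => ℂ)).symm.toContinuousLinearMap.analyticAt
        _).comp_of_eq h2 rfl
    have h3 : AnalyticAt ℂ (fun z : H × Eq' q => S.B z.1 z.2)
        (Γ.op (D p) x, WithLp.toLp 2 (fderiv ℂ (D p).t x (Pi.single i 1))) :=
      S.B.analyticAt_bilinear _
    exact h3.comp_of_eq (h1.prod h5) rfl
  pull D h x hh hD i := by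
    rw [Γ.pull D h x hh hD]
    have : fderiv ℂ (D.pull h).t x (Pi.single i 1) =
        ∑ j, jac h x j i • fderiv ℂ D.t (h x) (Pi.single j 1) :=
      fderiv_comp_single hD.1.differentiableAt hh.differentiableAt i
    rw [this]
    have e : (WithLp.toLp 2 (∑ j, jac h x j i • fderiv ℂ D.t (h x) (Pi.single j 1)) : Eq' q) =
        ∑ j, jac h x j i • (WithLp.toLp 2 (fderiv ℂ D.t (h x) (Pi.single j 1)) : Eq' q) := by
      have := map_sum (PiLp.continuousLinearEquiv 2 ℂ (fun _ : Fin q => ℂ)).symm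
        (fun j => jac h x j i • fderiv ℂ D.t (h x) (Pi.single j 1)) Finset.univ
      simp
    rw [e]
    simp only [map_smul, map_sum, smul_apply, Finset.smul_sum]
    exact Finset.sum_congr rfl fun j _ => smul_comm _ _ _
  iso U₁ U₂ := by
    obtain ⟨U, hU⟩ := Γ.iso U₁ U₂
    obtain ⟨L, hL⟩ := S.map U LinearIsometry.id
    refine ⟨L, fun c D x hD i => ?_⟩
    have h1 : fderiv ℂ (D.act U₁ U₂ c).t x = fderiv ℂ D.t x := by
      simp only [Dat.act]
      rw [fderiv_add_const]
    rw [h1, hU c D x hD, hL]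
    rfl

/-- Contraction of a 1-form with `w`. -/
def opC {m : ℕ} {K T : Type} [NormedAddCommGroup K] [InnerProductSpace ℂ K]
    [NormedAddCommGroup T] [InnerProductSpace ℂ T] (S : Tens K H₂ T)
    (β : NatForm q R H₁ H₂ m K) : NatOp q R H₁ H₂ (m + 1) T where
  op D x := ∑ i, S.B (β.op D x i) (D.w x i)
  loc D D' x h := by rw [β.loc D D' x h, h.2.2.eq_of_nhds]
  an P _ _ D p x h := by
    have h1 := β.an P D p x h
    have h2 := h.2.2
    rw [analyticAt_pi_iff] at h1 h2
    refine Finset.analyticAt_fun_sum _ fun i _ => ?_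
    have h3 : AnalyticAt ℂ (fun z : K × H₂ => S.B z.1 z.2)
        (β.op (D p) x i, (D p).w x i) := S.B.analyticAt_bilinear _
    exact h3.comp_of_eq ((h1 i).prod (h2 i)) rfl
  pull D h x hh hD := by
    have e : ∀ i, S.B (β.op (D.pull h) x i) ((D.pull h).w x i) =
        ∑ j, ∑ k, ((jac h x).det ^ m * (jac h x j i * (jac h x).adjugate i k)) •
          S.B (β.op D (h x) j) (D.w (h x) k) := by
      intro i
      rw [β.pull D h x hh hD i]
      simp only [Dat.pull, map_smul, map_sum, smul_apply, sum_apply, Finset.smul_sum, smul_smul]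
      rw [Finset.sum_comm]
      refine Finset.sum_congr rfl fun j _ => Finset.sum_congr rfl fun k _ => ?_
      congr 1
      ring
    have e2 : ∀ j k : Fin R, ∑ i, (jac h x).det ^ m * (jac h x j i * (jac h x).adjugate i k) =
        (jac h x).det ^ (m + 1) * (1 : Matrix (Fin R) (Fin R) ℂ) j k := by
      intro j k
      have := congrFun (congrFun (Matrix.mul_adjugate (jac h x)) j) k
      rw [Matrix.mul_apply] at this
      rw [← Finset.mul_sum, this, pow_succ]
      simp [mul_assoc]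
    rw [Finset.sum_congr rfl fun i _ => e i, Finset.sum_comm, Finset.smul_sum]
    refine Finset.sum_congr rfl fun j _ => ?_
    rw [Finset.sum_comm]
    simp only [← Finset.sum_smul, e2]
    rw [Finset.sum_eq_single j]
    · simp
    · intro k _ hk
      rw [Matrix.one_apply_ne hk.symm]
      simp
    · simp
  iso U₁ U₂ := by
    obtain ⟨U, hU⟩ := β.iso U₁ U₂
    obtain ⟨L, hL⟩ := S.map U U₂
    refine ⟨L, fun c D x hD => ?_⟩
    simp only [map_sum, hU c D x hD, hL]
    rfl

end

end Vale.Agent.P284.H625
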