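import Vale.Agent.P284.H625.NS.Ops3
import Mathlib.LinearAlgebra.Alternating.Basic
import Mathlib.Analysis.Analytic.CPolynomial

/-!
# P284 (helper625), module NS: `R`-fold wedge of a 1-form
-/

open scoped Topology
open Filter

noncomputable section

set_option linter.unusedSectionVars false

namespace Vale.Agent.P284.H625

open Vale.Agent.P272.K

/-- Hilbert space tensor power. -/
structure TPow (K T : Type) [NormedAddCommGroup K] [InnerProductSpace ℂ K]
    [NormedAddCommGroup T] [InnerProductSpace ℂ T] (n : ℕ) where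
  μ : ContinuousMultilinearMap ℂ (fun _ : Fin n => K) T
  inner_μ : ∀ a b : Fin n → K, inner ℂ (μ a) (μ b) = ∏ i, inner ℂ (a i) (b i)
  map : ∀ U : K →ₗᵢ[ℂ] K, ∃ V : T →ₗᵢ[ℂ] T, ∀ a : Fin n → K, V (μ a) = μ fun i => U (a i)

section
variable {n : ℕ} {K T : Type} [NormedAddCommGroup K] [InnerProductSpace ℂ K]
  [NormedAddCommGroup T] [InnerProductSpace ℂ T]

theorem altr_eq (μ : ContinuousMultilinearMap ℂ (fun _ : Fin n => K) T) (u : Fin n → K) :
    altr μ u = MultilinearMap.alternatization μ.toMultilinearMap u := by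
  rw [MultilinearMap.alternatization_apply]
  simp only [altr]
  refine Finset.sum_congr rfl fun σ _ => ?_
  rw [Units.smul_def]
  rfl

/-- an alternating map on linear combinations of `n` vectors -/
theorem alt_comb (g : K [⋀^Fin n]→ₗ[ℂ] T) (A : Matrix (Fin n) (Fin n) ℂ) (b : Fin n → K) :
    g (fun i => ∑ j, A j i • b j) = A.det • g b := by
  have h : g.compLinearMap (Fintype.linearCombination ℂ b) =
      (LinearMap.toSpanSingleton ℂ T (g b)).compAlternatingMap (Pi.basisFun ℂ (Fin n)).det := by
    refine (Pi.basisFun ℂ (Fin n)).ext_alternating fun v hv => ?_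
    have hb : Function.Bijective v := Finite.injective_iff_bijective.mp hv
    have h1 : (fun i => (Fintype.linearCombination ℂ b) ((Pi.basisFun ℂ (Fin n)) (v i))) =
        b ∘ (Equiv.ofBijective v hb) := by
      funext i
      simp [Fintype.linearCombination_apply, Pi.single_apply]
    have h2 : (fun i => (Pi.basisFun ℂ (Fin n)) (v i)) =
        (Pi.basisFun ℂ (Fin n)) ∘ (Equiv.ofBijective v hb) := rfl
    rw [AlternatingMap.compLinearMap_apply]
    rw [show (fun i => (Fintype.linearCombination ℂ b) ((fun i => (Pi.basisFun ℂ (Fin n)) (v i)) i))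
      = b ∘ (Equiv.ofBijective v hb) from h1]
    rw [AlternatingMap.map_perm, LinearMap.compAlternatingMap_apply, h2, AlternatingMap.map_perm,
      Module.Basis.det_self, LinearMap.toSpanSingleton_apply, Units.smul_def, Units.smul_def,
      ← Int.cast_smul_eq_zsmul ℂ, ← Int.cast_smul_eq_zsmul ℂ]
    simp
  have h3 := congrArg (fun f => f (fun i j => A j i)) h
  simp only [AlternatingMap.compLinearMap_apply, LinearMap.compAlternatingMap_apply,
    LinearMap.toSpanSingleton_apply, Fintype.linearCombination_apply] at h3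
  rw [h3, Pi.basisFun_det_apply]
  congr 1
  exact Matrix.det_transpose A

theorem altr_comb (μ : ContinuousMultilinearMap ℂ (fun _ : Fin n => K) T) (c : ℂ)
    (A : Matrix (Fin n) (Fin n) ℂ) (b : Fin n → K) :
    altr μ (fun i => c • ∑ j, A j i • b j) = (c ^ n * A.det) • altr μ b := by
  rw [altr_eq, altr_eq, mul_smul, ← alt_comb]
  have := (MultilinearMap.alternatization μ.toMultilinearMap).map_smul_univ (fun _ => c)
    (fun i => ∑ j, A j i • b j)
  rw [this]
  simp

theorem inner_altr (S : TPow K T n) (κ u : Fin n → K) :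
    inner ℂ (S.μ κ) (altr S.μ u) = (Matrix.of fun i j => inner ℂ (κ i) (u j)).det := by
  rw [← Matrix.det_transpose, Matrix.det_apply, altr, inner_sum]
  refine Finset.sum_congr rfl fun σ _ => ?_
  rw [Units.smul_def, ← Int.cast_smul_eq_zsmul ℂ, inner_smul_right, S.inner_μ,
    ← Int.cast_smul_eq_zsmul ℂ, smul_eq_mul]
  rfl

theorem altr_map (S : TPow K T n) (U : K →ₗᵢ[ℂ] K) (V : T →ₗᵢ[ℂ] T)
    (h : ∀ a : Fin n → K, V (S.μ a) = S.μ fun i => U (a i)) (u : Fin n → K) :
    altr S.μ (fun i => U (u i)) = V (altr S.μ u) := by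
  simp only [altr, map_sum, map_zsmul, h]
  rfl

end

section
variable {q R : ℕ} {H₁ H₂ : Type} [NormedAddCommGroup H₁] [InnerProductSpace ℂ H₁]
  [CompleteSpace H₁] [NormedAddCommGroup H₂] [InnerProductSpace ℂ H₂] [CompleteSpace H₂]

/-- `R`-fold wedge of a natural 1-form. -/
def opAlt {m : ℕ} {K T : Type} [NormedAddCommGroup K] [InnerProductSpace ℂ K]
    [NormedAddCommGroup T] [InnerProductSpace ℂ T] (S : TPow K T R)
    (β : NatForm q R H₁ H₂ m K) : NatOp q R H₁ H₂ (m * R + 1) T where
  op D x := altr S.μ (β.op D x)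
  loc D D' x h := by rw [β.loc D D' x h]
  an P _ _ D p x h := by
    have h1 := β.an P D p x h
    simp only [altr]
    refine Finset.analyticAt_fun_sum _ fun σ _ => ?_
    have h2 : AnalyticAt ℂ (fun y : P × Cm R => (β.op (D y.1) y.2) ∘ σ) (p, x) := by
      rw [analyticAt_pi_iff] at h1 ⊢
      exact fun i => h1 (σ i)
    have h3 : AnalyticAt ℂ (fun u : Fin R → K => S.μ u) ((β.op (D p) x) ∘ σ) := by
      exact S.μ.analyticAt
    have h4 : AnalyticAt ℂ (fun y : P × Cm R => S.μ ((β.op (D y.1) y.2) ∘ σ)) (p, x) :=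
      h3.comp_of_eq h2 rfl
    exact (h4.const_smul (c := ((Equiv.Perm.sign σ : ℤ) : ℂ))).congr
      (Eventually.of_forall fun y => by
        simp only [Pi.smul_apply]
        exact Int.cast_smul_eq_zsmul ℂ _ _)
  pull D h x hh hD := by
    have e : β.op (D.pull h) x = fun i => (jac h x).det ^ m • ∑ j, jac h x j i • β.op D (h x) j :=
      funext fun i => β.pull D h x hh hD i
    rw [e, altr_comb, pow_succ, pow_mul]
  iso U₁ U₂ := by
    obtain ⟨U, hU⟩ := β.iso U₁ U₂
    obtain ⟨V, hV⟩ := S.map U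
    refine ⟨V, fun c D x hD => ?_⟩
    have e : β.op (D.act U₁ U₂ c) x = fun i => U (β.op D x i) := funext fun i => hU c D x hD i
    rw [e, altr_map S U V hV]

end

end Vale.Agent.P284.H625
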