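import Vale.Agent.P284.H625.NS.ExtMod
import Vale.Agent.P284.H338.ENat
import Vale.Agent.P268.Hol
import Mathlib.Analysis.Calculus.DifferentialForm.Basic
import Mathlib.Analysis.Calculus.ParametricIntervalIntegral

/-!
# P284 (helper625), module NS: relative Poincaré lemma
-/

open scoped Topology
open Filter

noncomputable section

set_option linter.unusedSectionVars false

namespace Vale.Agent.P284.H625

open Vale.Agent.P272.K Vale.Agent.P284.H501 MeasureTheory

section param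
variable {V W : Type} [NormedAddCommGroup V] [NormedSpace ℂ V] [FiniteDimensional ℂ V]
  [NormedAddCommGroup W] [NormedSpace ℂ W] [CompleteSpace W]

/-- differentiation under the integral sign for jointly analytic functions -/
theorem param_an {g : ℂ × V → W} {u₀ : V}
    (hg : ∀ τ : ℝ, τ ∈ Set.Icc (0 : ℝ) 1 → AnalyticAt ℂ g ((τ : ℂ), u₀)) :
    AnalyticAt ℂ (fun u => ∫ τ in (0 : ℝ)..1, g ((τ : ℂ), u)) u₀ ∧
    ∀ᶠ u in 𝓝 u₀, HasFDerivAt (fun u => ∫ τ in (0 : ℝ)..1, g ((τ : ℂ), u))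
      (∫ τ in (0 : ℝ)..1, fderiv ℂ (fun u => g ((τ : ℂ), u)) u) u ∧
      (∀ τ : ℝ, τ ∈ Set.Icc (0 : ℝ) 1 → AnalyticAt ℂ g ((τ : ℂ), u)) ∧
      IntervalIntegrable (fun τ : ℝ => fderiv ℂ (fun u => g ((τ : ℂ), u)) u) volume 0 1 := by
  have : ProperSpace V := FiniteDimensional.proper ℂ V
  have hcx : Continuous fun z : V × ℝ => (((z.2 : ℂ), z.1) : ℂ × V) := by fun_prop
  have h1 : ∀ᶠ u in 𝓝 u₀, ∀ τ ∈ Set.Icc (0 : ℝ) 1, AnalyticAt ℂ g ((τ : ℂ), u) := by
    refine isCompact_Icc.eventually_forall_of_forall_eventually fun τ hτ => ?_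
    exact (hcx.tendsto (u₀, τ)).eventually (hg τ hτ).eventually_analyticAt
  obtain ⟨δ, hδ, hb⟩ := Metric.eventually_nhds_iff_ball.1 h1
  -- the derivative
  have hFd : ∀ u ∈ Metric.ball u₀ δ, ∀ τ ∈ Set.Icc (0 : ℝ) 1,
      HasFDerivAt (fun u => g ((τ : ℂ), u)) ((fderiv ℂ g ((τ : ℂ), u)).comp
        (ContinuousLinearMap.inr ℂ ℂ V)) u := by
    intro u hu τ hτ
    exact (hb u hu τ hτ).differentiableAt.hasFDerivAt.comp u (hasFDerivAt_prodMk_right (τ : ℂ) u)
  have hF' : ∀ u ∈ Metric.ball u₀ δ, ∀ τ ∈ Set.Icc (0 : ℝ) 1,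
      fderiv ℂ (fun u => g ((τ : ℂ), u)) u = (fderiv ℂ g ((τ : ℂ), u)).comp
        (ContinuousLinearMap.inr ℂ ℂ V) := fun u hu τ hτ => (hFd u hu τ hτ).fderiv
  have hcF : ∀ u ∈ Metric.ball u₀ δ,
      ContinuousOn (fun τ : ℝ => fderiv ℂ (fun u => g ((τ : ℂ), u)) u) (Set.Icc 0 1) := by
    intro u hu
    refine ContinuousOn.congr (f := fun τ : ℝ => (fderiv ℂ g ((τ : ℂ), u)).comp
        (ContinuousLinearMap.inr ℂ ℂ V)) ?_ fun τ hτ => hF' u hu τ hτ
    refine ContinuousOn.clm_comp ?_ continuousOn_const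
    intro τ hτ
    have h2 : ContinuousAt (fderiv ℂ g) ((τ : ℂ), u) := (hb u hu τ hτ).fderiv.continuousAt
    have h3 : ContinuousAt (fun τ : ℝ => (((τ : ℂ), u) : ℂ × V)) τ := by fun_prop
    exact (ContinuousAt.comp (f := fun τ : ℝ => (((τ : ℂ), u) : ℂ × V)) h2 h3).continuousWithinAt
  have hcg : ∀ u ∈ Metric.ball u₀ δ,
      ContinuousOn (fun τ : ℝ => g ((τ : ℂ), u)) (Set.Icc 0 1) := by
    intro u hu τ hτ
    have h2 : ContinuousAt g ((τ : ℂ), u) := (hb u hu τ hτ).continuousAt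
    have h3 : ContinuousAt (fun τ : ℝ => (((τ : ℂ), u) : ℂ × V)) τ := by fun_prop
    exact (ContinuousAt.comp (f := fun τ : ℝ => (((τ : ℂ), u) : ℂ × V)) h2 h3).continuousWithinAt
  -- the bound
  obtain ⟨C, hC⟩ : ∃ C : ℝ, ∀ τ ∈ Set.Icc (0 : ℝ) 1, ∀ u ∈ Metric.closedBall u₀ (δ / 2),
      ‖fderiv ℂ (fun u => g ((τ : ℂ), u)) u‖ ≤ C := by
    have hK : IsCompact (Set.Icc (0 : ℝ) 1 ×ˢ Metric.closedBall u₀ (δ / 2)) :=
      isCompact_Icc.prod (isCompact_closedBall u₀ (δ / 2))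
    have hcK : ContinuousOn (fun z : ℝ × V => (fderiv ℂ g ((z.1 : ℂ), z.2)).comp
        (ContinuousLinearMap.inr ℂ ℂ V)) (Set.Icc (0 : ℝ) 1 ×ˢ Metric.closedBall u₀ (δ / 2)) := by
      refine ContinuousOn.clm_comp ?_ continuousOn_const
      intro z hz
      have hz2 : z.2 ∈ Metric.ball u₀ δ :=
        Metric.closedBall_subset_ball (by linarith) hz.2
      have h2 : ContinuousAt (fderiv ℂ g) ((z.1 : ℂ), z.2) :=
        (hb z.2 hz2 z.1 hz.1).fderiv.continuousAt
      have h3 : ContinuousAt (fun z : ℝ × V => (((z.1 : ℂ), z.2) : ℂ × V)) z := by fun_prop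
      exact (ContinuousAt.comp (f := fun z : ℝ × V => (((z.1 : ℂ), z.2) : ℂ × V))
        h2 h3).continuousWithinAt
    obtain ⟨C, hC⟩ := hK.exists_bound_of_continuousOn hcK
    refine ⟨C, fun τ hτ u hu => ?_⟩
    rw [hF' u (Metric.closedBall_subset_ball (by linarith) hu) τ hτ]
    exact hC (τ, u) ⟨hτ, hu⟩
  have hsub : Set.uIoc (0 : ℝ) 1 ⊆ Set.Icc 0 1 := by
    rw [Set.uIoc_of_le zero_le_one]
    exact Set.Ioc_subset_Icc_self
  have key : ∀ u ∈ Metric.ball u₀ (δ / 2), HasFDerivAt (fun u => ∫ τ in (0 : ℝ)..1, g ((τ : ℂ), u))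
      (∫ τ in (0 : ℝ)..1, fderiv ℂ (fun u => g ((τ : ℂ), u)) u) u := by
    intro u hu
    have hu' : u ∈ Metric.ball u₀ δ := Metric.ball_subset_ball (by linarith) hu
    have hs : Metric.ball u₀ (δ / 2) ∈ 𝓝 u := Metric.isOpen_ball.mem_nhds hu
    refine intervalIntegral.hasFDerivAt_integral_of_dominated_of_fderiv_le (𝕜 := ℂ)
      (F := fun u τ => g ((τ : ℂ), u))
      (F' := fun u τ => fderiv ℂ (fun u => g ((τ : ℂ), u)) u) (bound := fun _ => C) hs ?_ ?_ ?_ ?_ ?_ ?_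
    · filter_upwards [hs] with v hv
      exact ((hcg v (Metric.ball_subset_ball (by linarith) hv)).mono hsub).aestronglyMeasurable
        measurableSet_uIoc
    · refine (hcg u hu').intervalIntegrable_of_Icc zero_le_one
    · exact ((hcF u hu').mono hsub).aestronglyMeasurable measurableSet_uIoc
    · refine Filter.Eventually.of_forall fun τ hτ v hv => ?_
      exact hC τ (hsub hτ) v (Metric.ball_subset_closedBall hv)
    · exact intervalIntegrable_const
    · refine Filter.Eventually.of_forall fun τ hτ v hv => ?_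
      have hv' : v ∈ Metric.ball u₀ δ := Metric.ball_subset_ball (by linarith) hv
      have := hFd v hv' τ (hsub hτ)
      rw [← hF' v hv' τ (hsub hτ)] at this
      exact this
  refine ⟨?_, ?_⟩
  · refine Vale.Agent.P268.analyticAt_of_differentiableOn (U := Metric.ball u₀ (δ / 2))
      Metric.isOpen_ball ?_ (Metric.mem_ball_self (by positivity))
    intro u hu
    exact (key u hu).differentiableAt.differentiableWithinAt
  · filter_upwards [Metric.ball_mem_nhds u₀ (half_pos hδ)] with u hu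
    have hu' : u ∈ Metric.ball u₀ δ := Metric.ball_subset_ball (by linarith) hu
    exact ⟨key u hu, hb u hu', (hcF u hu').intervalIntegrable_of_Icc zero_le_one⟩

end param

section snoc
variable {n q : ℕ} {W : Type} [NormedAddCommGroup W] [NormedSpace ℂ W]

/-- the family `(e_1, …, e_q, η)` -/
def sn (ε : Fin q → Cm n) (η : Cm n) : Fin (q + 1) → Cm n := Fin.snoc (α := fun _ => Cm n) ε η

theorem sn_last (ε : Fin q → Cm n) (η : Cm n) : sn ε η (Fin.last q) = η := by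
  simp [sn]

theorem sn_castSucc (ε : Fin q → Cm n) (η : Cm n) (i : Fin q) : sn ε η i.castSucc = ε i := by
  simp [sn]

theorem sn_update (ε : Fin q → Cm n) (η ζ : Cm n) :
    Function.update (sn ε η) (Fin.last q) ζ = sn ε ζ := by
  simp [sn, Fin.update_snoc_last]

theorem alt_sn_add (A : Cm n [⋀^Fin (q + 1)]→L[ℂ] W) (ε : Fin q → Cm n) (η ζ : Cm n) (r : ℂ) :
    A (sn ε (η + r • ζ)) = A (sn ε η) + r • A (sn ε ζ) := by
  have h1 := A.map_update_add (sn ε 0) (Fin.last q) η (r • ζ)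
  have h2 := A.map_update_smul (sn ε 0) (Fin.last q) r ζ
  rw [sn_update, sn_update, sn_update] at h1
  rw [sn_update, sn_update] at h2
  rw [h1, h2]

/-- relatively closed -/
theorem closed_swap {L : Cm n →L[ℂ] Cm q} {S : Cm n → Cm n [⋀^Fin (q + 1)]→L[ℂ] W} {x : Cm n}
    (ε : Fin q → Cm n) (hd : DifferentiableAt ℂ S x) (hc : extDeriv S x = 0)
    (hrel : ∀ᶠ x' in 𝓝 x, ∀ (ξ : Fin (q + 1) → Cm n) (i j : Fin (q + 1)), i ≠ j → L (ξ i) = 0 →
      L (ξ j) = 0 → S x' ξ = 0) {η ζ : Cm n} (hη : L η = 0) (hζ : L ζ = 0) :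
    fderiv ℂ (fun x => S x (sn ε ζ)) x η = fderiv ℂ (fun x => S x (sn ε η)) x ζ := by
  have h0 := extDeriv_apply hd
    (Fin.snoc (α := fun _ => Cm n) (sn ε η) ζ : Fin (q + 1 + 1) → Cm n)
  rw [hc, Fin.sum_univ_castSucc, Fin.sum_univ_castSucc] at h0
  have h1 : ∀ i : Fin q, fderiv ℂ (fun x => S x ((i.castSucc.castSucc).removeNth
      (Fin.snoc (α := fun _ => Cm n) (sn ε η) ζ : Fin (q + 1 + 1) → Cm n))) x = 0 := by
    intro i
    have h2 : (fun x => S x ((i.castSucc.castSucc).removeNth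
      (Fin.snoc (α := fun _ => Cm n) (sn ε η) ζ : Fin (q + 1 + 1) → Cm n))) =ᶠ[𝓝 x] fun _ => 0 := by
      have hne : (i.castSucc : Fin (q + 1)) ≠ Fin.last q := (Fin.castSucc_lt_last i).ne
      obtain ⟨k, hk⟩ := Fin.exists_succAbove_eq (x := Fin.last (q + 1))
        (y := i.castSucc.castSucc) (Fin.castSucc_lt_last _).ne'
      obtain ⟨l, hl⟩ := Fin.exists_succAbove_eq (x := (Fin.last q).castSucc)
        (y := i.castSucc.castSucc) (fun h => hne (Fin.castSucc_injective _ h).symm)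
      filter_upwards [hrel] with x' hx'
      refine hx' _ k l ?_ ?_ ?_
      · intro hkl
        rw [hkl, hl] at hk
        exact (Fin.castSucc_lt_last (Fin.last q)).ne hk
      · rw [Fin.removeNth_apply, hk, Fin.snoc_last]
        exact hζ
      · rw [Fin.removeNth_apply, hl, Fin.snoc_castSucc, sn_last]
        exact hη
    rw [h2.fderiv_eq]
    simp
  have e1 : (Fin.last q).castSucc.removeNth
      (Fin.snoc (α := fun _ => Cm n) (sn ε η) ζ : Fin (q + 1 + 1) → Cm n) = sn ε ζ := by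
    funext k
    refine Fin.lastCases ?_ (fun i => ?_) k
    · rw [Fin.removeNth_apply, sn_last]
      have : (Fin.last q).castSucc.succAbove (Fin.last q) = Fin.last (q + 1) := by
        rw [Fin.succAbove_of_le_castSucc _ _ le_rfl, Fin.succ_last]
      rw [this, Fin.snoc_last]
    · rw [Fin.removeNth_apply, sn_castSucc]
      have : (Fin.last q).castSucc.succAbove i.castSucc = i.castSucc.castSucc := by
        rw [Fin.succAbove_of_castSucc_lt]
        exact Fin.castSucc_lt_castSucc_iff.2 (Fin.castSucc_lt_last i)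
      rw [this, Fin.snoc_castSucc, sn_castSucc]
  have e2 : (Fin.last (q + 1)).removeNth
      (Fin.snoc (α := fun _ => Cm n) (sn ε η) ζ : Fin (q + 1 + 1) → Cm n) = sn ε η := by
    funext k
    rw [Fin.removeNth_apply, Fin.succAbove_last, Fin.snoc_castSucc]
  rw [e1, e2] at h0
  simp only [h1, Fin.snoc_last, Fin.snoc_castSucc, sn_last, Fin.val_castSucc, Fin.val_last] at h0
  have e3 : (0 : Cm n [⋀^Fin (q + 1 + 1)]→L[ℂ] W)
      (Fin.snoc (α := fun _ => Cm n) (sn ε η) ζ : Fin (q + 1 + 1) → Cm n) = 0 := rfl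
  have e4 : ∀ v : Cm n, (0 : Cm n →L[ℂ] W) v = 0 := fun v => rfl
  simp only [e3, e4, smul_zero, Finset.sum_const_zero, zero_add] at h0
  rw [pow_succ, mul_neg, mul_one, neg_smul, ← sub_eq_add_neg, ← smul_sub] at h0
  rcases neg_one_pow_eq_or ℤ q with h | h
  · rw [h, one_smul] at h0
    exact sub_eq_zero.1 h0.symm
  · rw [h, neg_smul, one_smul] at h0
    exact sub_eq_zero.1 (neg_eq_zero.1 h0.symm)

/-- analyticity of the evaluation at `(e_1, …, e_q, B u)` -/
theorem sn_an {P : Type} [NormedAddCommGroup P] [NormedSpace ℂ P]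
    {A : P → Cm n [⋀^Fin (q + 1)]→L[ℂ] W} {B : P → Cm n} {x : P} (ε : Fin q → Cm n)
    (hA : AnalyticAt ℂ A x) (hB : AnalyticAt ℂ B x) :
    AnalyticAt ℂ (fun y => A y (sn ε (B y))) x := by
  refine H338.alt_an hA ?_
  have h1 : (fun y => sn ε (B y)) = fun y => sn ε 0 +
      (LinearMap.toContinuousLinearMap (LinearMap.single ℂ (fun _ : Fin (q + 1) => Cm n)
        (Fin.last q))) (B y) := by
    funext y
    funext k
    refine Fin.lastCases ?_ (fun i => ?_) k
    · simp [sn_last]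
    · simp [sn_castSucc, (Fin.castSucc_lt_last i).ne]
  rw [h1]
  exact analyticAt_const.add ((ContinuousLinearMap.analyticAt _ _).fun_comp hB)

/-- **Relative Poincaré lemma**, straight case. -/
theorem straight [CompleteSpace W] {L : Cm n →L[ℂ] Cm q} {s₀ : Cm q →L[ℂ] Cm n}
    (hLs : ∀ w, L (s₀ w) = w) (ε : Fin q → Cm n) {S : Cm n → Cm n [⋀^Fin (q + 1)]→L[ℂ] W}
    (hS : AnalyticAt ℂ S 0) (hcl : ∀ᶠ u in 𝓝 0, extDeriv S u = 0)
    (hrel : ∀ᶠ u in 𝓝 0, ∀ (ξ : Fin (q + 1) → Cm n) (i j : Fin (q + 1)), i ≠ j → L (ξ i) = 0 →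
      L (ξ j) = 0 → S u ξ = 0) :
    ∃ G : Cm n → W, AnalyticAt ℂ G 0 ∧ ∀ᶠ u in 𝓝 0, ∀ η, L η = 0 →
      fderiv ℂ G u η = S u (sn ε η) := by
  set E : Cm n →L[ℂ] Cm n := s₀.comp L with hE
  set Q : Cm n →L[ℂ] Cm n := ContinuousLinearMap.id ℂ (Cm n) - E with hQ
  have hLE : ∀ u, L (E u) = L u := fun u => by rw [hE, ContinuousLinearMap.comp_apply, hLs]
  have hLQ : ∀ u, L (Q u) = 0 := fun u => by
    rw [hQ, sub_apply, map_sub, hLE, ContinuousLinearMap.id_apply, sub_self]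
  have hEk : ∀ η, L η = 0 → E η = 0 := fun η hη => by
    rw [hE, ContinuousLinearMap.comp_apply, hη, map_zero]
  have hQk : ∀ η, L η = 0 → Q η = η := fun η hη => by
    rw [hQ, sub_apply, hEk η hη, ContinuousLinearMap.id_apply, sub_zero]
  set g : ℂ × Cm n → W := fun p => S (E p.2 + p.1 • Q p.2) (sn ε (Q p.2)) with hg
  have hgan : ∀ τ : ℝ, τ ∈ Set.Icc (0 : ℝ) 1 → AnalyticAt ℂ g ((τ : ℂ), 0) := by
    intro τ _
    have h2 : AnalyticAt ℂ (fun p : ℂ × Cm n => p.2) ((τ : ℂ), 0) :=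
      (ContinuousLinearMap.snd ℂ ℂ (Cm n)).analyticAt _
    have h1 : AnalyticAt ℂ (fun p : ℂ × Cm n => p.1) ((τ : ℂ), 0) :=
      (ContinuousLinearMap.fst ℂ ℂ (Cm n)).analyticAt _
    have h3 : AnalyticAt ℂ (fun p : ℂ × Cm n => Q p.2) ((τ : ℂ), 0) := (Q.analyticAt _).fun_comp h2
    have h4 : AnalyticAt ℂ (fun p : ℂ × Cm n => E p.2) ((τ : ℂ), 0) := (E.analyticAt _).fun_comp h2
    have h5 : AnalyticAt ℂ (fun p : ℂ × Cm n => E p.2 + p.1 • Q p.2) ((τ : ℂ), 0) :=
      h4.add (h1.smul h3)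
    refine sn_an ε ?_ h3
    refine AnalyticAt.fun_comp (g := S) ?_ h5
    simpa using hS
  obtain ⟨han, hev⟩ := param_an hgan
  refine ⟨_, han, ?_⟩
  -- the good neighbourhood
  have hgood : ∀ᶠ u in 𝓝 (0 : Cm n), AnalyticAt ℂ S u ∧ extDeriv S u = 0 ∧
      ∀ (ξ : Fin (q + 1) → Cm n) (i j : Fin (q + 1)), i ≠ j → L (ξ i) = 0 →
      L (ξ j) = 0 → S u ξ = 0 := by
    filter_upwards [hS.eventually_analyticAt, hcl, hrel] with u h1 h2 h3
    exact ⟨h1, h2, h3⟩
  have hgood' : ∀ᶠ u in 𝓝 (0 : Cm n), ∀ τ ∈ Set.Icc (0 : ℝ) 1, ∀ᶠ x in 𝓝 (E u + (τ : ℂ) • Q u),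
      AnalyticAt ℂ S x ∧ extDeriv S x = 0 ∧
      ∀ (ξ : Fin (q + 1) → Cm n) (i j : Fin (q + 1)), i ≠ j → L (ξ i) = 0 →
      L (ξ j) = 0 → S x ξ = 0 := by
    refine isCompact_Icc.eventually_forall_of_forall_eventually fun τ _ => ?_
    have hc : Continuous fun z : Cm n × ℝ => E z.1 + (z.2 : ℂ) • Q z.1 := by fun_prop
    have h1 := hc.tendsto ((0 : Cm n), τ)
    have h2 : E (0 : Cm n) + (τ : ℂ) • Q (0 : Cm n) = 0 := by simp
    simp only [h2] at h1
    exact h1.eventually hgood.eventually_nhds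
  filter_upwards [hev, hgood'] with u h1 h2
  intro η hη
  obtain ⟨hd, hga, hint⟩ := h1
  rw [hd.fderiv, ContinuousLinearMap.intervalIntegral_apply hint]
  set c := E u with hc
  set y := Q u with hy
  have hLy : L y = 0 := hLQ u
  -- the two derivatives
  have hD : ∀ τ ∈ Set.Icc (0 : ℝ) 1, fderiv ℂ (fun u => g ((τ : ℂ), u)) u η =
      (τ : ℂ) • fderiv ℂ (fun x => S x (sn ε η)) (c + (τ : ℂ) • y) y +
        S (c + (τ : ℂ) • y) (sn ε η) := by
    intro τ hτ
    have hx := (h2 τ hτ).self_of_nhds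
    have hgd : DifferentiableAt ℂ (fun u => g ((τ : ℂ), u)) u :=
      DifferentiableAt.comp (g := g) (f := fun u : Cm n => ((τ : ℂ), u)) u
        (hga τ hτ).differentiableAt (by fun_prop)
    have e1 : HasDerivAt (fun r : ℂ => u + r • η) η 0 := by
      have := ((hasDerivAt_id (0 : ℂ)).smul_const η).const_add u
      simpa using this
    have e2 : HasDerivAt (fun r : ℂ => g ((τ : ℂ), u + r • η))
        (fderiv ℂ (fun u => g ((τ : ℂ), u)) u η) 0 := by
      have h3 : HasFDerivAt (fun u => g ((τ : ℂ), u)) (fderiv ℂ (fun u => g ((τ : ℂ), u)) u)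
          (u + (0 : ℂ) • η) := by
        rw [zero_smul, add_zero]; exact hgd.hasFDerivAt
      exact h3.comp_hasDerivAt (0 : ℂ) e1
    have e3 : (fun r : ℂ => g ((τ : ℂ), u + r • η)) = fun r : ℂ =>
        S (c + (τ : ℂ) • y + r • ((τ : ℂ) • η)) (sn ε y) +
          r • S (c + (τ : ℂ) • y + r • ((τ : ℂ) • η)) (sn ε η) := by
      funext r
      simp only [hg]
      have h4 : E (u + r • η) = c := by rw [map_add, map_smul, hEk η hη, smul_zero, add_zero]
      have h5 : Q (u + r • η) = y + r • η := by rw [map_add, map_smul, hQk η hη]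
      rw [h4, h5, alt_sn_add]
      have h6 : c + (τ : ℂ) • (y + r • η) = c + (τ : ℂ) • y + r • ((τ : ℂ) • η) := by
        rw [smul_add, smul_comm, add_assoc]
      rw [h6]
    have e4 : ∀ ζ, HasDerivAt (fun r : ℂ => S (c + (τ : ℂ) • y + r • ((τ : ℂ) • η)) (sn ε ζ))
        ((τ : ℂ) • fderiv ℂ (fun x => S x (sn ε ζ)) (c + (τ : ℂ) • y) η) 0 := by
      intro ζ
      have h5 : DifferentiableAt ℂ (fun x => S x (sn ε ζ)) (c + (τ : ℂ) • y) :=
        (sn_an ε hx.1 analyticAt_const).differentiableAt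
      have h6 : HasFDerivAt (fun x => S x (sn ε ζ)) (fderiv ℂ (fun x => S x (sn ε ζ))
          (c + (τ : ℂ) • y)) (c + (τ : ℂ) • y + (0 : ℂ) • ((τ : ℂ) • η)) := by
        rw [zero_smul, add_zero]; exact h5.hasFDerivAt
      have h7 : HasDerivAt (fun r : ℂ => c + (τ : ℂ) • y + r • ((τ : ℂ) • η)) ((τ : ℂ) • η) 0 := by
        have := ((hasDerivAt_id (0 : ℂ)).smul_const ((τ : ℂ) • η)).const_add (c + (τ : ℂ) • y)
        simpa using this
      have h8 := h6.comp_hasDerivAt (0 : ℂ) h7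
      rw [map_smul] at h8
      exact h8
    rw [e3] at e2
    have e5 := (e4 y).add ((hasDerivAt_id (0 : ℂ)).smul (e4 η))
    have e6 := e2.unique e5
    rw [e6]
    simp only [id_eq, zero_smul, add_zero, one_smul, zero_add]
    rw [closed_swap ε hx.1.differentiableAt hx.2.1
      ((h2 τ hτ).mono fun x hx => hx.2.2) hη hLy]
  have hcg : Set.EqOn (fun τ : ℝ => fderiv ℂ (fun u => g ((τ : ℂ), u)) u η)
      (fun τ : ℝ => (τ : ℂ) • fderiv ℂ (fun x => S x (sn ε η)) (c + (τ : ℂ) • y) y +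
        S (c + (τ : ℂ) • y) (sn ε η)) (Set.uIcc 0 1) := by
    intro τ hτ
    rw [Set.uIcc_of_le zero_le_one] at hτ
    exact hD τ hτ
  rw [intervalIntegral.integral_congr hcg]
  -- the fundamental theorem of calculus
  have hft : ∀ τ ∈ Set.uIcc (0 : ℝ) 1, HasDerivAt
      (fun τ : ℝ => (τ : ℂ) • S (c + (τ : ℂ) • y) (sn ε η))
      ((τ : ℂ) • fderiv ℂ (fun x => S x (sn ε η)) (c + (τ : ℂ) • y) y +
        S (c + (τ : ℂ) • y) (sn ε η)) τ := by
    intro τ hτ
    rw [Set.uIcc_of_le zero_le_one] at hτ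
    have hx := (h2 τ hτ).self_of_nhds
    have e1 : HasDerivAt (fun τ : ℝ => (τ : ℂ)) 1 τ := Complex.ofRealCLM.hasDerivAt
    have e2 : HasDerivAt (fun τ : ℝ => c + (τ : ℂ) • y) y τ := by
      simpa using (e1.smul_const y).const_add c
    have e3 : DifferentiableAt ℂ (fun x => S x (sn ε η)) (c + (τ : ℂ) • y) :=
      (sn_an ε hx.1 analyticAt_const).differentiableAt
    have e4 := (e3.hasFDerivAt.restrictScalars ℝ).comp_hasDerivAt τ e2
    have e5 := e1.smul e4
    simp only [Function.comp_apply, one_smul] at e5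
    exact e5
  have hcont : IntervalIntegrable (fun τ : ℝ => (τ : ℂ) •
      fderiv ℂ (fun x => S x (sn ε η)) (c + (τ : ℂ) • y) y +
        S (c + (τ : ℂ) • y) (sn ε η)) MeasureTheory.volume 0 1 := by
    refine ContinuousOn.intervalIntegrable_of_Icc zero_le_one ?_
    intro τ hτ
    have hx := (h2 τ hτ).self_of_nhds
    have e1 : AnalyticAt ℂ (fun x => S x (sn ε η)) (c + (τ : ℂ) • y) :=
      sn_an ε hx.1 analyticAt_const
    have e2 : ContinuousAt (fun τ : ℝ => c + (τ : ℂ) • y) τ := by fun_prop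
    have e3 : ContinuousAt (fun τ : ℝ => (τ : ℂ)) τ := by fun_prop
    have e4 : ContinuousAt (fun τ : ℝ => fderiv ℂ (fun x => S x (sn ε η)) (c + (τ : ℂ) • y)) τ :=
      ContinuousAt.comp (g := fderiv ℂ (fun x => S x (sn ε η)))
        (f := fun τ : ℝ => c + (τ : ℂ) • y) e1.fderiv.continuousAt e2
    have e5 : ContinuousAt (fun τ : ℝ => S (c + (τ : ℂ) • y) (sn ε η)) τ :=
      ContinuousAt.comp (g := fun x => S x (sn ε η))
        (f := fun τ : ℝ => c + (τ : ℂ) • y) e1.continuousAt e2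
    exact ((e3.smul (e4.clm_apply continuousAt_const)).add e5).continuousWithinAt
  rw [intervalIntegral.integral_eq_sub_of_hasDerivAt hft hcont]
  have hcy : c + y = u := by
    rw [hc, hy, hQ, sub_apply, ContinuousLinearMap.id_apply]
    abel
  simp [hcy]

end snoc

end Vale.Agent.P284.H625
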