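import Vale.Agent.P284.H625.NS.Spec3
import Mathlib.Analysis.Calculus.MeanValue
import Mathlib.Analysis.Calculus.Deriv.Mul
import Mathlib.Analysis.Normed.Operator.Prod
import Mathlib.Analysis.Normed.Module.FiniteDimension

/-!
# P284 (helper625), module NS / C5: a germ which preserves the natural operator `next Γ` and `dt`
preserves `Θ`
-/

open scoped Topology
open Filter

noncomputable section

set_option linter.unusedSectionVars false

namespace Vale.Agent.P284.H625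

open Vale.Agent.P272.K

/-- `tq` as a continuous linear map -/
def tqL (q r : ℕ) : Cm (q + r) →L[ℂ] Cm q :=
  (LinearMap.funLeft ℂ ℂ (Fin.castAdd r : Fin q → Fin (q + r))).toContinuousLinearMap

theorem tqL_apply {q r : ℕ} (x : Cm (q + r)) : tqL q r x = tq x := rfl

/-- the point over `t` with the `y`-coordinates of `x₁` -/
def sec {q r : ℕ} (x₁ : Cm (q + r)) (t : Cm q) : Cm (q + r) :=
  Fin.append t fun a => x₁ (Fin.natAdd q a)

theorem tq_sec {q r : ℕ} (x₁ : Cm (q + r)) (t : Cm q) : tq (sec x₁ t) = t := by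
  funext j
  simp [tq, sec]

theorem sec_tq {q r : ℕ} (x₁ : Cm (q + r)) : sec x₁ (tq x₁) = x₁ := by
  funext j
  refine Fin.addCases (fun i => ?_) (fun i => ?_) j
  · simp [tq, sec]
  · simp [sec]

theorem sec_an {q r : ℕ} (x₁ : Cm (q + r)) (t : Cm q) : AnalyticAt ℂ (sec x₁) t := by
  rw [analyticAt_pi_iff]
  intro j
  refine Fin.addCases (fun i => ?_) (fun i => ?_) j
  · simp only [sec, Fin.append_left]
    exact (ContinuousLinearMap.proj (R := ℂ) (φ := fun _ : Fin q => ℂ) i).analyticAt t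
  · simp only [sec, Fin.append_right]
    exact analyticAt_const

theorem sec_mem {q r : ℕ} {x₁ x : Cm (q + r)} {ρ : ℝ} (hx : x ∈ Metric.ball x₁ ρ) :
    sec x₁ (tq x) ∈ Metric.ball x₁ ρ := by
  have hρ : 0 < ρ := lt_of_le_of_lt dist_nonneg hx
  rw [Metric.mem_ball, dist_pi_lt_iff hρ] at hx ⊢
  intro j
  refine Fin.addCases (fun i => ?_) (fun i => ?_) j
  · simpa [sec, tq] using hx (Fin.castAdd r i)
  · simpa [sec] using hρ

/-- a vertical vector is a combination of the `ey a` -/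
theorem vert_eq_sum {q r : ℕ} {ζ : Cm (q + r)} (h : tq ζ = 0) :
    ζ = ∑ a : Fin r, ζ (Fin.natAdd q a) • (ey a : Cm (q + r)) := by
  funext j
  simp only [ey, Finset.sum_apply, Pi.smul_apply, smul_eq_mul, Pi.single_apply]
  refine Fin.addCases (fun i => ?_) (fun i => ?_) j
  · have h1 : ζ (Fin.castAdd r i) = 0 := congrFun h i
    rw [h1]
    refine (Finset.sum_eq_zero fun a _ => ?_).symm
    rw [if_neg]
    · simp
    · intro h2
      have := congrArg Fin.val h2
      simp at this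
      omega
  · rw [Finset.sum_eq_single i]
    · simp
    · intro b _ hb
      rw [if_neg]
      · simp
      · intro h2
        exact hb (Fin.natAdd_injective _ _ h2).symm
    · simp

/-- a function whose vertical derivatives vanish depends on `t` only -/
theorem eq_of_vert {q r : ℕ} {V : Type} [NormedAddCommGroup V] [NormedSpace ℂ V]
    {g : Cm (q + r) → V} {x₁ : Cm (q + r)} (hg : ∀ᶠ x in 𝓝 x₁, DifferentiableAt ℂ g x)
    (h : ∀ᶠ x in 𝓝 x₁, ∀ a : Fin r, fderiv ℂ g x (ey a) = 0) :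
    ∀ᶠ x in 𝓝 x₁, g x = g (sec x₁ (tq x)) := by
  obtain ⟨ρ, hρ, hB⟩ := Metric.eventually_nhds_iff_ball.mp (hg.and h)
  filter_upwards [Metric.ball_mem_nhds x₁ hρ] with x hx
  set p := sec x₁ (tq x) with hp
  set d := x - p with hd
  have hpB : p ∈ Metric.ball x₁ ρ := sec_mem hx
  have hdv : tq d = 0 := by
    have : tqL q r d = tqL q r x - tqL q r p := map_sub _ _ _
    rw [← tqL_apply, this, tqL_apply, tqL_apply, hp, tq_sec, sub_self]
  have hseg : ∀ s ∈ Set.Icc (0 : ℝ) 1, p + s • d ∈ Metric.ball x₁ ρ := by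
    intro s hs
    have := (convex_ball x₁ ρ).add_smul_sub_mem hpB hx hs
    simpa [hd] using this
  have hder : ∀ s ∈ Set.Icc (0 : ℝ) 1, HasDerivAt (fun s : ℝ => g (p + s • d)) 0 s := by
    intro s hs
    obtain ⟨h1, h2⟩ := hB _ (hseg s hs)
    have h3 : HasFDerivAt g ((fderiv ℂ g (p + s • d)).restrictScalars ℝ) (p + s • d) :=
      h1.hasFDerivAt.restrictScalars ℝ
    have h4 : HasDerivAt (fun s : ℝ => p + s • d) d s := by
      simpa using ((hasDerivAt_id s).smul_const d).const_add p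
    have h5 := h3.comp_hasDerivAt s h4
    have h6 : (fderiv ℂ g (p + s • d)).restrictScalars ℝ d = 0 := by
      rw [ContinuousLinearMap.coe_restrictScalars']
      generalize p + s • d = y at h2
      rw [vert_eq_sum hdv, map_sum]
      exact Finset.sum_eq_zero fun a _ => by rw [map_smul, h2 a, smul_zero]
    rw [h6] at h5
    exact h5
  have hc := constant_of_has_deriv_right_zero (f := fun s : ℝ => g (p + s • d)) (a := 0) (b := 1)
    (fun s hs => (hder s hs).continuousAt.continuousWithinAt)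
    (fun s hs => (hder s ⟨hs.1, hs.2.le⟩).hasDerivWithinAt)
  have := hc 1 ⟨zero_le_one, le_refl 1⟩
  simp only [one_smul, zero_smul, add_zero] at this
  rw [← this, hd]
  simp

section
variable {q r : ℕ} {W H₁ H₂ : Type} [NormedAddCommGroup W] [InnerProductSpace ℂ W]
  [CompleteSpace W]
  [NormedAddCommGroup H₁] [InnerProductSpace ℂ H₁] [CompleteSpace H₁] [NormedAddCommGroup H₂]
  [InnerProductSpace ℂ H₂] [CompleteSpace H₂]

/-- **C5**: a germ `ψ` with `Γ'(D₂) ∘ ψ = Γ'(D₁)`, `Γ' = next Γ`, and `t ∘ ψ = t + c` preserves the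
fields `∂/∂y_a` and the form `Θ`. -/
theorem sheet {m M : ℕ} (hM : 1 ≤ M) {H K : Type} [NormedAddCommGroup H] [InnerProductSpace ℂ H]
    [CompleteSpace H] [NormedAddCommGroup K] [InnerProductSpace ℂ K] [CompleteSpace K]
    {Γ : NatOp q (q + r) H₁ H₂ m H} {Γ' : NatOp q (q + r) H₁ H₂ M K} (hΓ : Nrm Γ)
    (hN : Nxt Γ Γ') {D₁ D₂ : Dat q (q + r) H₁ H₂} {F₁ F₂ : Cm (q + r) → W}
    {x₁ x₂ : Cm (q + r)} {ε : H₁} {e : Fin r → H₂} {del : Fin r → W → H₁}
    (h₁ : AdC D₁ F₁ x₁ ε e del) (h₂ : AdC D₂ F₂ x₂ ε e del) {ψ : Cm (q + r) → Cm (q + r)}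
    (hψ : AnalyticAt ℂ ψ x₁) (hx : ψ x₁ = x₂)
    (hop : ∀ᶠ x in 𝓝 x₁, Γ'.op D₂ (ψ x) = Γ'.op D₁ x) {c : Cm q}
    (ht : ∀ᶠ x in 𝓝 x₁, tq (ψ x) = tq x + c)
    (tr : ∀ ξ : Cm (q + r), tq ξ = 0 → fderiv ℂ (Γ.op D₂) x₂ ξ = 0 → ξ = 0) :
    (∀ᶠ x in 𝓝 x₁, ∀ a, fderiv ℂ ψ x (ey a) = ey a) ∧
    (∀ᶠ x in 𝓝 x₁, ψ x = ψ (sec x₁ (tq x)) + (x - sec x₁ (tq x))) ∧
    (∀ᶠ x in 𝓝 x₁, F₂ (ψ x) =
      F₁ x + (F₂ (ψ (sec x₁ (tq x))) - F₁ (sec x₁ (tq x)))) := by
  subst hx
  have hc := hψ.continuousAt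
  -- components of `Γ`
  have hG : ∀ᶠ x in 𝓝 x₁, Γ.op D₂ (ψ x) = Γ.op D₁ x := by
    filter_upwards [hop, h₁.one, h₁.an.eventually, hc.eventually h₂.one,
      hc.eventually h₂.an.eventually] with x a1 a2 a3 a4 a5
    refine ext_inner_left ℂ fun δ => ?_
    obtain ⟨κ, hκ⟩ := hN.incl δ ε
    have b1 := hκ D₁ x a3
    have b2 := hκ D₂ (ψ x) a5
    rw [a2, one_pow, mul_one] at b1
    rw [a4, one_pow, mul_one] at b2
    rw [← b1, ← b2, a1]
  obtain ⟨δ₀, hδ₀⟩ := hΓ ε
  have hder : ∀ {D : Dat q (q + r) H₁ H₂} {F : Cm (q + r) → W} {x₀ : Cm (q + r)}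
      (_ : AdC D F x₀ ε e del), ∀ᶠ x in 𝓝 x₀, ∀ (a : Fin r) (δ : H), ∀ κ : K,
      (∀ (D : Dat q (q + r) H₁ H₂) (x : Cm (q + r)), D.An x →
        inner ℂ κ (Γ'.op D x) = ∑ i, (inner ℂ δ₀ (Γ.op D x) *
        inner ℂ δ (fderiv ℂ (Γ.op D) x (Pi.single i 1)) -
        inner ℂ δ₀ (fderiv ℂ (Γ.op D) x (Pi.single i 1)) * inner ℂ δ (Γ.op D x)) *
        inner ℂ (e a) (D.w x i)) →
      inner ℂ κ (Γ'.op D x) = inner ℂ δ (fderiv ℂ (Γ.op D) x (ey a)) := by
    intro D F x₀ hA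
    have h1 : ∀ᶠ x in 𝓝 x₀, inner ℂ δ₀ (Γ.op D x) = 1 := by
      filter_upwards [hA.one, hA.an.eventually] with x b1 b2
      rw [hδ₀ D x b2, b1, one_pow]
    filter_upwards [h1.eventually_nhds, hA.an.eventually, hA.vec] with x b1 b2 b3 a δ κ hκ
    have hd := (Γ.anAt b2).differentiableAt
    have e1 : ∀ v, inner ℂ δ₀ (fderiv ℂ (Γ.op D) x v) = 0 := by
      intro v
      rw [← fderiv_inner_const δ₀ hd]
      have : (fun y => inner ℂ δ₀ (Γ.op D y)) =ᶠ[𝓝 x] fun _ => (1 : ℂ) := b1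
      rw [this.fderiv_eq]
      simp
    rw [hκ D x b2, clm_apply_sum (fderiv ℂ (Γ.op D) x) (ey a), inner_sum]
    refine Finset.sum_congr rfl fun i _ => ?_
    rw [b1.self_of_nhds, e1, b3 a i, inner_smul_right]
    ring
  have hD : ∀ᶠ x in 𝓝 x₁, ∀ a : Fin r,
      fderiv ℂ (Γ.op D₂) (ψ x) (ey a) = fderiv ℂ (Γ.op D₁) x (ey a) := by
    filter_upwards [hop, hder h₁, hc.eventually (hder h₂)] with x a1 a2 a3 a
    refine ext_inner_left ℂ fun δ => ?_
    obtain ⟨κ, hκ⟩ := hN.der δ₀ δ (e a)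
    rw [← a2 a δ κ hκ, ← a3 a δ κ hκ, a1]
  -- the set of transversal points is open
  have htr : ∀ᶠ y in 𝓝 (ψ x₁), ∀ ξ : Cm (q + r), tq ξ = 0 →
      fderiv ℂ (Γ.op D₂) y ξ = 0 → ξ = 0 := by
    have h3 : ContinuousAt (fun y => (tqL q r).prod (fderiv ℂ (Γ.op D₂) y)) (ψ x₁) := by
      have h4 : ContinuousAt (fun y => fderiv ℂ (Γ.op D₂) y) (ψ x₁) :=
        (Γ.anAt h₂.an).fderiv.continuousAt
      have h5 : Continuous fun p : (Cm (q + r) →L[ℂ] Cm q) × (Cm (q + r) →L[ℂ] H) =>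
          p.1.prod p.2 :=
        (ContinuousLinearMap.prodₗᵢ (𝕜 := ℂ) (E := Cm (q + r)) (F := Cm q) (G := H)
          ℂ).continuous
      exact h5.continuousAt.comp (continuousAt_const.prodMk h4)
    have h6 : (tqL q r).prod (fderiv ℂ (Γ.op D₂) (ψ x₁)) ∈
        {L : Cm (q + r) →L[ℂ] (Cm q × H) | Function.Injective L} := by
      rw [Set.mem_ofPred_eq, injective_iff_map_eq_zero]
      intro ξ hξ
      have h7 := Prod.ext_iff.mp hξ
      exact tr ξ h7.1 h7.2
    filter_upwards [h3.eventually (ContinuousLinearMap.isOpen_injective.mem_nhds h6)]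
      with y hy ξ h8 h9
    have h10 : Function.Injective ((tqL q r).prod (fderiv ℂ (Γ.op D₂) y)) := hy
    apply h10
    rw [map_zero]
    exact Prod.ext h8 h9
  -- `ψ_* ∂/∂y_a = ∂/∂y_a`
  have hA : ∀ᶠ x in 𝓝 x₁, ∀ a, fderiv ℂ ψ x (ey a) = ey a := by
    filter_upwards [hG.eventually_nhds, hD, hc.eventually htr, ht.eventually_nhds,
      hψ.eventually_analyticAt, hc.eventually h₂.an.eventually] with x a1 a2 a3 a4 a5 a6 a
    have h4 : fderiv ℂ (fun x => Γ.op D₂ (ψ x)) x =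
        (fderiv ℂ (Γ.op D₂) (ψ x)).comp (fderiv ℂ ψ x) :=
      fderiv_fun_comp x (Γ.anAt a6).differentiableAt a5.differentiableAt
    have h5 : (fun x => Γ.op D₂ (ψ x)) =ᶠ[𝓝 x] Γ.op D₁ := a1
    rw [h5.fderiv_eq] at h4
    have h6 : fderiv ℂ (Γ.op D₂) (ψ x) (fderiv ℂ ψ x (ey a) - ey a) = 0 := by
      rw [map_sub, a2 a, h4]
      simp
    have h7 : tq (fderiv ℂ ψ x (ey a) - ey a) = 0 := by
      have h8 : fderiv ℂ (fun x => tqL q r (ψ x)) x = (tqL q r).comp (fderiv ℂ ψ x) :=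
        ((tqL q r).hasFDerivAt.comp x a5.differentiableAt.hasFDerivAt).fderiv
      have h9 : (fun x => tqL q r (ψ x)) =ᶠ[𝓝 x] fun x => tqL q r x + c := a4
      rw [h9.fderiv_eq, fderiv_add_const, ContinuousLinearMap.fderiv] at h8
      have h10 := congrArg (fun L => L (ey a)) h8
      simp only [ContinuousLinearMap.comp_apply] at h10
      rw [← tqL_apply, map_sub, ← h10, sub_self]
    exact sub_eq_zero.mp (a3 _ h7 h6)
  refine ⟨hA, ?_, ?_⟩
  · have h3 := eq_of_vert (g := fun x => ψ x - x) (x₁ := x₁)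
      (hψ.eventually_analyticAt.mono fun x hx =>
        (hx.differentiableAt.sub differentiableAt_id))
      (by
        filter_upwards [hA, hψ.eventually_analyticAt] with x a1 a2 a
        have : fderiv ℂ (fun x => ψ x - x) x = fderiv ℂ ψ x - ContinuousLinearMap.id ℂ _ :=
          (a2.differentiableAt.hasFDerivAt.sub (hasFDerivAt_id x)).fderiv
        rw [this]
        simp [a1 a])
    filter_upwards [h3] with x hx
    have : ψ x = (ψ x - x) + x := by abel
    rw [this, hx]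
    abel
  · have h3 := eq_of_vert (g := fun x => F₂ (ψ x) - F₁ x) (x₁ := x₁)
      (by
        filter_upwards [hψ.eventually_analyticAt, hc.eventually h₂.F_an.eventually_analyticAt,
          h₁.F_an.eventually_analyticAt] with x a1 a2 a3
        exact (a2.differentiableAt.comp x a1.differentiableAt).sub a3.differentiableAt)
      (by
        filter_upwards [hA, hψ.eventually_analyticAt,
          hc.eventually h₂.F_an.eventually_analyticAt, h₁.F_an.eventually_analyticAt, hop,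
          h₁.one, hc.eventually h₂.one, h₁.an.eventually, hc.eventually h₂.an.eventually,
          h₁.comp, hc.eventually h₂.comp] with x a1 a2 a3 a4 a5 a6 a7 a8 a9 a10 a11 a
        have h4 : fderiv ℂ (fun x => F₂ (ψ x) - F₁ x) x =
            (fderiv ℂ F₂ (ψ x)).comp (fderiv ℂ ψ x) - fderiv ℂ F₁ x :=
          ((a3.differentiableAt.hasFDerivAt.comp x a2.differentiableAt.hasFDerivAt).sub
            a4.differentiableAt.hasFDerivAt).fderiv
        rw [h4]
        simp only [sub_apply, ContinuousLinearMap.comp_apply, a1 a]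
        rw [sub_eq_zero]
        refine ext_inner_left ℂ fun h => ?_
        rw [← a10 a h, ← a11 a h]
        obtain ⟨κ, hκ⟩ := hN.pr (fun i => if i = ⟨0, by omega⟩ then del a h else ε)
        have key : ∀ (D : Dat q (q + r) H₁ H₂) (y : Cm (q + r)), inner ℂ ε (D.v y) = 1 →
            ∏ i : Fin M, inner ℂ (if i = ⟨0, by omega⟩ then del a h else ε) (D.v y) =
            inner ℂ (del a h) (D.v y) := by
          intro D y hy
          rw [Finset.prod_eq_single (⟨0, by omega⟩ : Fin M)]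
          · simp
          · intro b _ hb
            rw [if_neg hb, hy]
          · simp
        rw [← key D₂ (ψ x) a7, ← key D₁ x a6, ← hκ D₂ (ψ x) a9, ← hκ D₁ x a8, a5])
    filter_upwards [h3] with x hx
    rw [← hx]
    abel

end

end Vale.Agent.P284.H625
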