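import Vale.Agent.P284.H625.NS.Clo

/-!
# P284 (helper625), module NS: adapted data with explicit constants, the operator `next Γ`
-/

open scoped Topology
open Filter

noncomputable section

set_option linter.unusedSectionVars false

namespace Vale.Agent.P284.H625

open Vale.Agent.P272.K

section
variable {q r : ℕ} {W H₁ H₂ : Type} [NormedAddCommGroup W] [InnerProductSpace ℂ W]
  [NormedAddCommGroup H₁] [InnerProductSpace ℂ H₁] [CompleteSpace H₁] [NormedAddCommGroup H₂]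
  [InnerProductSpace ℂ H₂] [CompleteSpace H₂]

/-- `Adapted` with explicit constants `ε = f_1 ⊗ … ⊗ f_r`, `e a = ± ⊗_{b ≠ a} f_b`,
`del a h = f_1 ⊗ … h … ⊗ f_r`. -/
structure AdC (D : Dat q (q + r) H₁ H₂) (F : Cm (q + r) → W) (x₀ : Cm (q + r)) (ε : H₁)
    (e : Fin r → H₂) (del : Fin r → W → H₁) : Prop where
  an : D.An x₀
  t_eq : ∃ c : Cm q, ∀ᶠ x in 𝓝 x₀, D.t x = tq x + c
  F_an : AnalyticAt ℂ F x₀
  one : ∀ᶠ x in 𝓝 x₀, inner ℂ ε (D.v x) = 1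
  vec : ∀ᶠ x in 𝓝 x₀, ∀ a i, inner ℂ (e a) (D.w x i) = (ey a : Cm (q + r)) i
  comp : ∀ᶠ x in 𝓝 x₀, ∀ a h, inner ℂ (del a h) (D.v x) = inner ℂ h (fderiv ℂ F x (ey a))

theorem AdC.adapted {D : Dat q (q + r) H₁ H₂} {F : Cm (q + r) → W} {x₀ : Cm (q + r)} {ε : H₁}
    {e : Fin r → H₂} {del : Fin r → W → H₁} (h : AdC D F x₀ ε e del) : Adapted D F x₀ :=
  ⟨h.an, h.t_eq, h.F_an, ⟨ε, h.one⟩, fun a => ⟨e a, h.vec.mono fun _ hx => hx a⟩,
    fun a w => ⟨del a w, h.comp.mono fun _ hx => hx a w⟩⟩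

/-- `Γ'` contains `Γ`, the products of components of `v` and the derivatives of the ratios of
components of `Γ` along the fields `⟨e, w⟩`. -/
structure Nxt {R m M : ℕ} {H K : Type} [NormedAddCommGroup H] [InnerProductSpace ℂ H]
    [NormedAddCommGroup K] [InnerProductSpace ℂ K] (Γ : NatOp q R H₁ H₂ m H)
    (Γ' : NatOp q R H₁ H₂ M K) : Prop where
  le : m ≤ M
  pr : ∀ ε : Fin M → H₁, ∃ κ : K, ∀ (D : Dat q R H₁ H₂) (x : Cm R), D.An x →
    inner ℂ κ (Γ'.op D x) = ∏ i, inner ℂ (ε i) (D.v x)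
  incl : ∀ (δ : H) (ε : H₁), ∃ κ : K, ∀ (D : Dat q R H₁ H₂) (x : Cm R), D.An x →
    inner ℂ κ (Γ'.op D x) = inner ℂ δ (Γ.op D x) * inner ℂ ε (D.v x) ^ (M - m)
  der : ∀ (δ δ' : H) (e : H₂), ∃ κ : K, ∀ (D : Dat q R H₁ H₂) (x : Cm R), D.An x →
    inner ℂ κ (Γ'.op D x) = ∑ i, (inner ℂ δ (Γ.op D x) *
      inner ℂ δ' (fderiv ℂ (Γ.op D) x (Pi.single i 1)) -
      inner ℂ δ (fderiv ℂ (Γ.op D) x (Pi.single i 1)) * inner ℂ δ' (Γ.op D x)) *
      inner ℂ e (D.w x i)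

theorem Nxt.nrm {R m M : ℕ} {H K : Type} [NormedAddCommGroup H] [InnerProductSpace ℂ H]
    [NormedAddCommGroup K] [InnerProductSpace ℂ K] {Γ : NatOp q R H₁ H₂ m H}
    {Γ' : NatOp q R H₁ H₂ M K} (h : Nxt Γ Γ') : Nrm Γ' := by
  intro ε
  obtain ⟨κ, hκ⟩ := h.pr fun _ => ε
  exact ⟨κ, fun D x hD => by rw [hκ D x hD]; simp⟩

end

section
variable {q R : ℕ} {H₁ H₂ : Type} [NormedAddCommGroup H₁] [InnerProductSpace ℂ H₁]
  [CompleteSpace H₁] [NormedAddCommGroup H₂] [InnerProductSpace ℂ H₂] [CompleteSpace H₂]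

variable (q R H₁ H₂) in
/-- operators containing all products of components of `v` -/
theorem exists_vprod (M : ℕ) : ∃ (H : Type) (_ : NormedAddCommGroup H)
    (_ : InnerProductSpace ℂ H) (_ : CompleteSpace H) (Γ : NatOp q R H₁ H₂ (M + 1) H),
    ∀ ε : Fin (M + 1) → H₁, ∃ κ : H, ∀ (D : Dat q R H₁ H₂) (x : Cm R), D.An x →
      inner ℂ κ (Γ.op D x) = ∏ i, inner ℂ (ε i) (D.v x) := by
  induction M with
  | zero =>
    refine ⟨H₁, inferInstance, inferInstance, inferInstance, opV, fun ε => ⟨ε 0, fun D x _ => ?_⟩⟩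
    simp [opV]
  | succ M ih =>
    obtain ⟨H, i1, i2, i3, Γ, hΓ⟩ := ih
    obtain ⟨T, j1, j2, j3, ⟨S⟩⟩ := exists_tens H H₁
    refine ⟨T, j1, j2, j3, opTens S Γ opV, fun ε => ?_⟩
    obtain ⟨κ, hκ⟩ := hΓ fun i => ε i.castSucc
    refine ⟨S.B κ (ε (Fin.last _)), fun D x hD => ?_⟩
    rw [Fin.prod_univ_castSucc]
    simp only [opTens, opV, S.inner_B, hκ D x hD]

/-- `next Γ` -/
theorem exists_next {m : ℕ} (hm : 1 ≤ m) {H : Type} [NormedAddCommGroup H]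
    [InnerProductSpace ℂ H] [CompleteSpace H] (Γ : NatOp q R H₁ H₂ m H) :
    ∃ (M : ℕ) (_ : 1 ≤ M) (K : Type) (_ : NormedAddCommGroup K) (_ : InnerProductSpace ℂ K)
      (_ : CompleteSpace K) (Γ' : NatOp q R H₁ H₂ M K), Nxt Γ Γ' := by
  obtain ⟨T, j1, j2, j3, ⟨S⟩⟩ := exists_tens H H
  obtain ⟨T', k1, k2, k3, ⟨S'⟩⟩ := exists_tens T H₂
  obtain ⟨V, l1, l2, l3, ΓV, hV⟩ := exists_vprod q R H₁ H₂ m
  obtain ⟨U, n1, n2, n3, ⟨S''⟩⟩ := exists_tens H V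
  obtain ⟨V', o1, o2, o3, ΓV', hV'⟩ := exists_vprod q R H₁ H₂ (m + m)
  have e1 : m + (m + 1) = m + m + 1 := by omega
  let A : NatOp q R H₁ H₂ (m + m + 1) U := e1 ▸ opTens S'' Γ ΓV
  have hA : ∀ D x, A.op D x = (opTens S'' Γ ΓV).op D x := by
    intro D x
    have : ∀ (k : ℕ) (h : m + (m + 1) = k),
        (h ▸ opTens S'' Γ ΓV : NatOp q R H₁ H₂ k U).op D x = (opTens S'' Γ ΓV).op D x := by
      intro k h
      subst h
      rfl
    exact this _ e1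
  refine ⟨m + m + 1, by omega, WithLp 2 (WithLp 2 (V' × U) × T'), inferInstance, inferInstance,
    inferInstance, opSum (opSum ΓV' A) (opC S' (formD S Γ)), by omega, fun ε => ?_,
    fun δ ε => ?_, fun δ δ' e => ?_⟩
  · obtain ⟨κ, hκ⟩ := hV' ε
    refine ⟨WithLp.toLp 2 (WithLp.toLp 2 (κ, 0), 0), fun D x hD => ?_⟩
    simp only [opSum, WithLp.prod_inner_apply, inner_zero_left, add_zero]
    exact hκ D x hD
  · obtain ⟨κ, hκ⟩ := hV fun _ => ε
    refine ⟨WithLp.toLp 2 (WithLp.toLp 2 (0, S''.B δ κ), 0), fun D x hD => ?_⟩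
    simp only [opSum, WithLp.prod_inner_apply, inner_zero_left, add_zero, zero_add, hA, opTens,
      S''.inner_B, hκ D x hD]
    simp only [Finset.prod_const, Finset.card_univ, Fintype.card_fin]
    congr 2
    omega
  · refine ⟨WithLp.toLp 2 (0, S'.B (S.B δ δ') e), fun D x hD => ?_⟩
    simp only [opSum, WithLp.prod_inner_apply, inner_zero_left, zero_add, opC, formD, inner_sum,
      S'.inner_B, inner_sub_right, S.inner_B]

end

end Vale.Agent.P284.H625
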